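import Vale.Agent.P119.FB.Sys
import Vale.Agent.P119.M.Live

/-!
# P119, glue: closedness under decreasing limits (`helper376`)

The predicate `DClosed` of the abstract feedback block (`FB/Sys`) and the `∃ᶠ r in 𝓝[>] s` form of the
M-world (`M/Near`) are the same.  The status of the M-world is right-constant, so the times at which
two worlds give different statuses form a `DClosed` set.
-/

open MeasureTheory Filter Topology Set
open scoped ENNReal NNReal

noncomputable section

namespace Vale.Agent.P119.AU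

open FB M CTree

theorem frequently_right_iff {A : Set ℝ} {x : ℝ} :
    (∃ᶠ r in 𝓝[>] x, r ∈ A) ↔ ∀ δ > 0, ∃ s ∈ A, x < s ∧ s < x + δ := by
  constructor
  · intro h δ hδ
    have h1 : ∀ᶠ r in 𝓝[>] x, r ∈ Ioo x (x + δ) := Ioo_mem_nhdsGT (by linarith)
    obtain ⟨s, hs, hs'⟩ := (h.and_eventually h1).exists
    exact ⟨s, hs, hs'.1, hs'.2⟩
  · intro h h'
    rw [eventually_nhdsWithin_iff, Metric.eventually_nhds_iff] at h'
    obtain ⟨δ, hδ, hd⟩ := h'
    obtain ⟨s, hs, h1, h2⟩ := h δ hδ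
    refine hd (y := s) ?_ h1 hs
    rw [Real.dist_eq, abs_lt]
    constructor <;> linarith

/-- The two forms of closedness under decreasing limits agree. -/
theorem dclosed_iff {A : Set ℝ} :
    DClosed A ↔ ∀ x, (∃ᶠ r in 𝓝[>] x, r ∈ A) → x ∈ A := by
  constructor
  · intro h x hx
    refine h x fun δ hδ => ?_
    obtain ⟨s, hs, h1, h2⟩ := frequently_right_iff.1 hx δ hδ
    exact ⟨s, hs, h1.le, h2⟩
  · intro h x hx
    by_contra hxA
    refine hxA (h x (frequently_right_iff.2 fun δ hδ => ?_))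
    obtain ⟨s, hs, h1, h2⟩ := hx δ hδ
    refine ⟨s, hs, lt_of_le_of_ne h1 ?_, h2⟩
    rintro rfl
    exact hxA hs

theorem dclosed_of_frequently {A : Set ℝ} (h : ∀ x, (∃ᶠ r in 𝓝[>] x, r ∈ A) → x ∈ A) :
    DClosed A := dclosed_iff.2 h

/-- A set is `DClosed` if membership fails on a whole interval `[x, y)` as soon as it fails at `x`. -/
theorem dclosed_of_right {A : Set ℝ} (h : ∀ x ∉ A, ∃ y, x < y ∧ ∀ r ∈ Ico x y, r ∉ A) :
    DClosed A := by
  intro x hx
  by_contra hxA
  obtain ⟨y, hxy, hy⟩ := h x hxA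
  obtain ⟨s, hs, h1, h2⟩ := hx (y - x) (by linarith)
  exact hy s ⟨h1, by linarith⟩ hs

theorem dclosed_ici (c : ℝ) : DClosed {s | c ≤ s} :=
  DClosed.of_isClosed isClosed_Ici

theorem dclosed_lt (c : ℝ) : DClosed {s | s < c} := by
  intro x hx
  obtain ⟨s, hs, h1, _⟩ := hx 1 one_pos
  exact lt_of_le_of_lt h1 hs

theorem dclosed_le (c : ℝ) : DClosed {s | s ≤ c} := by
  intro x hx
  obtain ⟨s, hs, h1, _⟩ := hx 1 one_pos
  exact h1.trans hs

theorem dclosed_const (p : Prop) : DClosed {_s : ℝ | p} := by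
  intro x hx
  obtain ⟨s, hs, _, _⟩ := hx 1 one_pos
  exact hs

/-- Right-constant functions: the set where two of them differ is `DClosed`. -/
theorem dclosed_ne {S : Type*} {f g : ℝ → S}
    (hf : ∀ x, ∃ y, x < y ∧ ∀ r ∈ Ico x y, f r = f x)
    (hg : ∀ x, ∃ y, x < y ∧ ∀ r ∈ Ico x y, g r = g x) : DClosed {s | f s ≠ g s} := by
  refine dclosed_of_right fun x hx => ?_
  have hx' : f x = g x := by
    by_contra h
    exact hx h
  obtain ⟨y, h1, h2⟩ := hf x
  obtain ⟨z, h3, h4⟩ := hg x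
  refine ⟨min y z, lt_min h1 h3, fun r hr h => h ?_⟩
  rw [h2 r ⟨hr.1, hr.2.trans_le (min_le_left _ _)⟩, h4 r ⟨hr.1, hr.2.trans_le (min_le_right _ _)⟩,
    hx']

/-- The level sets of a right-constant function are `DClosed`. -/
theorem dclosed_level {S : Type*} {f : ℝ → S} (hf : ∀ x, ∃ y, x < y ∧ ∀ r ∈ Ico x y, f r = f x)
    (P : S → Prop) : DClosed {s | P (f s)} := by
  refine dclosed_of_right fun x hx => ?_
  obtain ⟨y, h1, h2⟩ := hf x
  refine ⟨y, h1, fun r hr h => hx ?_⟩
  have h' : P (f r) := h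
  rw [h2 r hr] at h'
  exact h'

/-- Contact times of two `C¹` paths. -/
theorem dclosed_ctc {ε : ℝ} (hε : 0 ≤ ε) {X Y : ℝ → Ph}
    (hX : ∀ s, HasDerivWithinAt (fun r => (X r).1) (X s).2 (Ioi s) s)
    (hY : ∀ s, HasDerivWithinAt (fun r => (Y r).1) (Y s).2 (Ioi s) s) :
    DClosed {s | Ctc ε (X s) (Y s)} :=
  dclosed_of_frequently fun s hs => ctc_of_frequently hε (hX s) (hY s) hs

section status

variable {Φ : E3 → ℝ} {ε : ℝ} {L : ℕ} {W : Set Src}

/-- A source is not alive before its birth. -/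
theorem stat_before (hΦ : IsPotential Φ) (hε : 0 < ε) {a : Src} {t : ℝ} (ht : t < a.1) :
    stat Φ ε L W a t = none := by
  rw [stat_eq_none_iff]
  intro T hT h
  have h1 := root_birth_le_sig hΦ hε h.ok
  have h2 := h.sig_le
  rw [hT] at h1
  linarith

/-- **The status is right-constant.** -/
theorem stat_right_const (hΦ : IsPotential Φ) (hε : 0 < ε) (hW : W.Finite) (a : Src) (t : ℝ) :
    ∃ s, t < s ∧ ∀ r ∈ Ico t s, stat Φ ε L W a r = stat Φ ε L W a t := by
  rcases lt_or_ge t a.1 with hta | hta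
  · refine ⟨a.1, hta, fun r hr => ?_⟩
    rw [stat_before hΦ hε hr.2, stat_before hΦ hε hta]
  · cases h : stat Φ ε L W a t with
    | none => exact ⟨t + 1, by linarith, fun r hr => stat_none_mono hΦ hε hW h hr.1 hta⟩
    | some T => exact stat_right hΦ hε hW h

/-- The times at which the status of a label is different in two worlds. -/
theorem dclosed_stat_ne (hΦ : IsPotential Φ) (hε : 0 < ε) {W₁ W₂ : Set Src} (h₁ : W₁.Finite)
    (h₂ : W₂.Finite) (a : Src) :
    DClosed {s | stat Φ ε L W₁ a s ≠ stat Φ ε L W₂ a s} :=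
  dclosed_ne (stat_right_const hΦ hε h₁ a) (stat_right_const hΦ hε h₂ a)

/-- The statuses up to `t` agree in two worlds iff they agree at `t`, as soon as one of them is
alive at `t`. -/
theorem stat_eq_of_eq (hΦ : IsPotential Φ) (hε : 0 < ε) {W₁ W₂ : Set Src} (h₁ : W₁.Finite)
    (h₂ : W₂.Finite) {a : Src} {t : ℝ} {T : CTree} (e₁ : stat Φ ε L W₁ a t = some T)
    (e₂ : stat Φ ε L W₂ a t = some T) {s : ℝ} (hs : s ≤ t) :
    stat Φ ε L W₁ a s = stat Φ ε L W₂ a s := by
  rcases lt_or_ge s a.1 with h | h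
  · rw [stat_before hΦ hε h, stat_before hΦ hε h]
  · rw [stat_cur hΦ hε h₁ e₁ hs h, stat_cur hΦ hε h₂ e₂ hs h]

/-- A label which does not belong to the world has no status. -/
theorem stat_of_notMem {a : Src} (ha : a ∉ W) (t : ℝ) : stat Φ ε L W a t = none := by
  rw [stat_eq_none_iff]
  intro T hT h
  exact ha (hT ▸ h.sub T.root_mem_leaves)

end status

end Vale.Agent.P119.AU
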