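import Vale.Agent.P119.END.AliveFin
import Vale.Agent.P119.ML.CapIn

/-!
# P119: the kinetic inputs of the master assembly from `RelZ` (`helper376`)

`alive_of_relZ`: `AliveENN` (the field `alive` of `AU.Inputs`) from the limit `RelZ` of the
probability of related hits (`ML/Exp`).  The fields `i1`, `nd`, `r` are `Cap.ev_i1`, `Cap.ev_nd`,
`Cap.ev_r` (`ML/CapIn`).
-/

open MeasureTheory Filter Topology Set
open scoped ENNReal

noncomputable section

namespace Vale.Agent.P119.AU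

open GC M CTree KT ML KE END

variable {Φ : E3 → ℝ} {f₀ : Ph → ℝ} {κ β' : ℝ} {hΦ : IsPotential Φ}
  {m₀ : Measurable fun p : E3 × E3 => K1.f0hat f₀ p.1 p.2} {T : ℝ} {f : ℝ → Ph → ℝ}

/-- **`AliveENN` from `RelZ`.** -/
theorem alive_of_relZ (K : KinFamily hΦ f₀ m₀ T f) (hg : GoodDatum f₀ κ) (hd : IsDatum β' f₀)
    (hT : 0 < T) (hrel : ∀ L, RelZ Φ f₀ L) (s : ℕ) :
    AliveENN f₀ T (uK K) (AL Φ) (MY Φ) s := by
  have hc : Continuous f₀ := hd.contDiff.continuous
  refine aliveENN_of_sys K hg hc hT s (fun L => gsys hΦ f₀ L (hrel L))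
    (fun L F t h => GenN.of_gen h) fun L hL εs h h0 t ht F hF => ?_
  have st : Std K κ L := ⟨hg, hc, hL, hT.le⟩
  exact (st.hyp h h0).surv_tendsto (gsys hΦ f₀ L (hrel L)) hF ht.1 ht.2

end Vale.Agent.P119.AU
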