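import Vale.Agent.P119.GC.Phase
import Vale.Agent.P119.FL.Mass
import Vale.Agent.P119.K1.Inst
import Vale.Agent.P119.M.Shape

/-!
# P119, glue: ordinary worlds and intensities (`helper376`)

* `srcEmb`, `wS w = w.map srcEmb`: the ordinary world of a finite set of phase points as a finite set
  of sources; `coe_wS : ↑(wS w) = M.world ↑w`;
* `lintegral_pi_cons`, `pi_mono`, `lintegral_pi_withDensity`: product measures on `Fin n → α`;
* `inten_le`, `lintegral_inten_le`, `lintegral_pi_inten_le`: the intensity `μ_ε f₀ dz` is at most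
  `M` times the Gaussian weights `FL.wt`.
-/

open MeasureTheory Filter Topology Set
open scoped ENNReal NNReal

noncomputable section

namespace Vale.Agent.P119.AU

/-! ### Ordinary worlds -/

/-- `src` as an embedding. -/
def srcEmb : Ph ↪ M.Src := ⟨M.src, M.src_injective⟩

@[simp] theorem srcEmb_apply (z : Ph) : srcEmb z = M.src z := rfl

/-- The ordinary world of a finite set of phase points. -/
def wS (w : Finset Ph) : Finset M.Src := w.map srcEmb

theorem coe_wS (w : Finset Ph) : (wS w : Set M.Src) = M.world (w : Set Ph) := by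
  unfold wS M.world
  rw [Finset.coe_map]
  rfl

theorem mem_wS {w : Finset Ph} {σ : M.Src} : σ ∈ wS w ↔ ∃ z ∈ w, M.src z = σ := by
  unfold wS
  simp

theorem src_mem_wS {w : Finset Ph} {z : Ph} : M.src z ∈ wS w ↔ z ∈ w := by
  unfold wS
  exact Finset.mem_map' srcEmb

theorem wS_eq_image [DecidableEq M.Src] (w : Finset Ph) : wS w = w.image M.src := by
  unfold wS
  rw [Finset.map_eq_image]
  rfl

theorem wS_mono {w w' : Finset Ph} (h : w ⊆ w') : wS w ⊆ wS w' := Finset.map_subset_map.2 h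

theorem card_wS (w : Finset Ph) : (wS w).card = w.card := Finset.card_map _

theorem wS_union [DecidableEq M.Src] [DecidableEq Ph] (w w' : Finset Ph) :
    wS (w ∪ w') = wS w ∪ wS w' := Finset.map_union _ _

theorem wS_sdiff [DecidableEq M.Src] [DecidableEq Ph] (w w' : Finset Ph) :
    wS (w \ w') = wS w \ wS w' := by
  ext σ
  rw [Finset.mem_sdiff, mem_wS, mem_wS, mem_wS]
  constructor
  · rintro ⟨z, hz, rfl⟩
    rw [Finset.mem_sdiff] at hz
    refine ⟨⟨z, hz.1, rfl⟩, ?_⟩
    rintro ⟨z', hz', h⟩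
    exact hz.2 (M.src_injective h ▸ hz')
  · rintro ⟨⟨z, hz, rfl⟩, h⟩
    exact ⟨z, Finset.mem_sdiff.2 ⟨hz, fun hz' => h ⟨z, hz', rfl⟩⟩, rfl⟩

theorem world_finite (w : Finset Ph) : (M.world (w : Set Ph)).Finite := w.finite_toSet.image _

/-! ### Product measures -/

section pi

variable {α : Type*} [MeasurableSpace α]

theorem map_cons {n : ℕ} (ν : Measure α) [SigmaFinite ν] :
    (ν.prod (Measure.pi fun _ : Fin n => ν)).map
      (MeasurableEquiv.piFinSuccAbove (fun _ : Fin (n + 1) => α) 0).symm =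
      Measure.pi fun _ : Fin (n + 1) => ν :=
  (measurePreserving_piFinSuccAbove (fun _ : Fin (n + 1) => ν) 0).symm.map_eq

/-- Integration over one more variable. -/
theorem lintegral_pi_cons {n : ℕ} (ν : Measure α) [SigmaFinite ν] (F : (Fin (n + 1) → α) → ℝ≥0∞)
    (hF : Measurable F) :
    ∫⁻ z, F z ∂(Measure.pi fun _ : Fin (n + 1) => ν) =
      ∫⁻ a, ∫⁻ q, F (Fin.cons a q) ∂(Measure.pi fun _ : Fin n => ν) ∂ν := by
  have hm : Measurable fun p : α × (Fin n → α) =>
      F ((MeasurableEquiv.piFinSuccAbove (fun _ : Fin (n + 1) => α) 0).symm p) :=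
    hF.comp (MeasurableEquiv.measurable _)
  rw [← map_cons ν, lintegral_map_equiv, lintegral_prod _ hm.aemeasurable]
  refine lintegral_congr fun a => lintegral_congr fun q => ?_
  congr 1
  exact (Fin.insertNth_zero (α := fun _ => α) a q).trans rfl

theorem pi_mono {n : ℕ} {ν ν' : Measure α} [SigmaFinite ν] [SigmaFinite ν'] (h : ν ≤ ν') :
    (Measure.pi fun _ : Fin n => ν) ≤ Measure.pi fun _ : Fin n => ν' := by
  induction n with
  | zero =>
    rw [Measure.pi_of_empty _ (fun i => i.elim0), Measure.pi_of_empty _ (fun i => i.elim0)]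
  | succ n ih =>
    rw [← map_cons ν, ← map_cons ν']
    exact Measure.map_mono (Measure.prod_mono h ih) (MeasurableEquiv.measurable _)

/-- Product of densities. -/
theorem lintegral_pi_withDensity {n : ℕ} (ν : Measure α) [SigmaFinite ν] {g : α → ℝ≥0∞}
    (hg : Measurable g) (hg' : ∀ a, g a ≠ ∞) {F : (Fin n → α) → ℝ≥0∞} (hF : Measurable F) :
    ∫⁻ z, F z ∂(Measure.pi fun _ : Fin n => ν.withDensity g) =
      ∫⁻ z, (∏ i, g (z i)) * F z ∂(Measure.pi fun _ : Fin n => ν) := by
  have : SigmaFinite (ν.withDensity g) := SigmaFinite.withDensity_of_ne_top' hg'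
  induction n with
  | zero =>
    rw [Measure.pi_of_empty _ (fun i => i.elim0), Measure.pi_of_empty _ (fun i => i.elim0)]
    simp
  | succ n ih =>
    have hP : Measurable fun z : Fin (n + 1) → α => (∏ i, g (z i)) * F z :=
      (Finset.measurable_prod _ fun i _ => hg.comp (measurable_pi_apply i)).mul hF
    rw [lintegral_pi_cons _ F hF, lintegral_pi_cons ν _ hP]
    have hc : Measurable fun p : α × (Fin n → α) => F (Fin.cons p.1 p.2) := by
      refine hF.comp ?_
      rw [measurable_pi_iff]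
      intro i
      refine Fin.cases ?_ (fun j => ?_) i
      · simpa using measurable_fst
      · simp only [Fin.cons_succ]
        exact (measurable_pi_apply j).comp measurable_snd
    have h1 : ∀ a, Measurable fun q : Fin n → α => F (Fin.cons a q) := fun a =>
      hc.comp measurable_prodMk_left
    have h2 : Measurable fun a => ∫⁻ q, F (Fin.cons a q)
        ∂(Measure.pi fun _ : Fin n => ν.withDensity g) := hc.lintegral_prod_right'
    rw [lintegral_withDensity_eq_lintegral_mul _ hg h2]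
    refine lintegral_congr fun a => ?_
    have h3 : Measurable fun q : Fin n → α => (∏ i, g (q i)) * F (Fin.cons a q) :=
      (Finset.measurable_prod _ fun i _ => hg.comp (measurable_pi_apply i)).mul (h1 a)
    rw [Pi.mul_apply, ih (h1 a), ← lintegral_const_mul _ h3]
    refine lintegral_congr fun q => ?_
    rw [Fin.prod_univ_succ]
    simp only [Fin.cons_zero, Fin.cons_succ]
    ring

end pi

/-! ### The intensity -/

section intensity

variable {f₀ : Ph → ℝ} {Mc b ε : ℝ}

/-- The Gaussian intensity `μ_ε e^{-b|v|²} dz`. -/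
def gInt (b ε : ℝ) : Measure Ph :=
  volume.withDensity fun z => FL.muE ε * ENNReal.ofReal (Real.exp (-b * ‖z.2‖ ^ 2))

theorem measurable_gd (b ε : ℝ) :
    Measurable fun z : Ph => FL.muE ε * ENNReal.ofReal (Real.exp (-b * ‖z.2‖ ^ 2)) := by
  fun_prop

theorem gd_ne_top (b ε : ℝ) (z : Ph) :
    FL.muE ε * ENNReal.ofReal (Real.exp (-b * ‖z.2‖ ^ 2)) ≠ ∞ :=
  ENNReal.mul_ne_top FL.muE_ne_top ENNReal.ofReal_ne_top

instance sigmaFinite_gInt : SigmaFinite (gInt b ε) :=
  SigmaFinite.withDensity_of_ne_top' (gd_ne_top b ε)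

/-- The intensity is at most `M` times the Gaussian one. -/
theorem inten_le (hM : 0 ≤ Mc) (h : ∀ x v, K1.f0hat f₀ x v ≤ KE.gs Mc b v) :
    GC.inten f₀ ε ≤ ENNReal.ofReal Mc • gInt b ε := by
  unfold GC.inten law gInt
  rw [← withDensity_smul' _ _ ENNReal.ofReal_ne_top, ← withDensity_smul' _ _ ENNReal.ofReal_ne_top]
  refine withDensity_mono (Eventually.of_forall fun z => ?_)
  have h1 := h z.1 z.2
  unfold K1.f0hat KE.gs at h1
  rw [ENNReal.ofReal_mul hM] at h1
  simp only [Pi.smul_apply, smul_eq_mul]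
  calc ENNReal.ofReal (mu ε) * ENNReal.ofReal (f₀ z)
      ≤ ENNReal.ofReal (mu ε) * (ENNReal.ofReal Mc * ENNReal.ofReal (Real.exp (-b * ‖z.2‖ ^ 2))) := by
        gcongr
    _ = _ := by
        unfold FL.muE
        ring

theorem lintegral_inten_le (hM : 0 ≤ Mc) (h : ∀ x v, K1.f0hat f₀ x v ≤ KE.gs Mc b v)
    (F : Ph → ℝ≥0∞) :
    ∫⁻ z, F z ∂(GC.inten f₀ ε) ≤ ENNReal.ofReal Mc * ∫⁻ z, F z ∂(gInt b ε) := by
  refine (lintegral_mono' (inten_le hM h) le_rfl).trans ?_
  rw [lintegral_smul_measure, smul_eq_mul]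

theorem lintegral_gInt {F : Ph → ℝ≥0∞} (hF : Measurable F) :
    ∫⁻ z, F z ∂(gInt b ε) =
      ∫⁻ z, (FL.muE ε * ENNReal.ofReal (Real.exp (-b * ‖z.2‖ ^ 2))) * F z := by
  unfold gInt
  rw [lintegral_withDensity_eq_lintegral_mul _ (measurable_gd b ε) hF]
  rfl

theorem lintegral_pi_gInt {n : ℕ} {F : (Fin n → Ph) → ℝ≥0∞} (hF : Measurable F) :
    ∫⁻ z, F z ∂(Measure.pi fun _ : Fin n => gInt b ε) = ∫⁻ z, FL.wt b ε n z * F z := by
  unfold gInt
  rw [lintegral_pi_withDensity _ (measurable_gd b ε) (gd_ne_top b ε) hF]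
  rfl

/-- **Integration against the intensity is bounded by integration against `FL.wt`.** -/
theorem lintegral_pi_inten_le [IsFiniteMeasure (GC.inten f₀ ε)] (hM : 0 ≤ Mc)
    (h : ∀ x v, K1.f0hat f₀ x v ≤ KE.gs Mc b v) {n : ℕ} {F : (Fin n → Ph) → ℝ≥0∞}
    (hF : Measurable F) :
    ∫⁻ z, F z ∂(Measure.pi fun _ : Fin n => GC.inten f₀ ε) ≤
      ENNReal.ofReal Mc ^ n * ∫⁻ z, FL.wt b ε n z * F z := by
  have hs : SigmaFinite (ENNReal.ofReal Mc • gInt b ε) := by
    unfold gInt
    rw [← withDensity_smul' _ _ ENNReal.ofReal_ne_top]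
    exact SigmaFinite.withDensity_of_ne_top'
      fun z => ENNReal.mul_ne_top ENNReal.ofReal_ne_top (gd_ne_top b ε z)
  have h1 := lintegral_mono' (pi_mono (n := n) (inten_le (ε := ε) hM h)) (le_refl F)
  refine h1.trans ?_
  have h2 : (ENNReal.ofReal Mc • gInt b ε) = (gInt b ε).withDensity fun _ => ENNReal.ofReal Mc := by
    rw [withDensity_const]
  have h3 := lintegral_pi_withDensity (n := n) (gInt b ε) (g := fun _ => ENNReal.ofReal Mc)
    measurable_const (fun _ => ENNReal.ofReal_ne_top) hF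
  simp only [← h2] at h3
  rw [h3, Finset.prod_const, Finset.card_univ, Fintype.card_fin, lintegral_const_mul _ hF,
    lintegral_pi_gInt hF]

end intensity

end Vale.Agent.P119.AU
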