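import Vale.Agent.P119.AU.Top
import Vale.Agent.P119.PB.Src
import Vale.Agent.P119.PB.Op3

/-!
# P119, AUDIT/GLUE: monotonicity in the stopping level (`helper376`)

* `dTh b T' l₁ l₂ a hΦ f₀ w L η ε t`: the norm of `thL L hΦ hε f₀ η t w` for all real `ε`
  (`Θ` of `RawSys` for `w` large, `W L δ` for `w = δ`);
* `dD_mono`, `dF_mono`, `dTh_mono`: the fields `monoD`, `monoF`, `monoΘ` of `RawSys`.
-/

open MeasureTheory Filter Topology Set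
open scoped ENNReal NNReal

noncomputable section

namespace Vale.Agent.P119.AU

open M RB PB

variable {Φ : E3 → ℝ} {hΦ : IsPotential Φ} {f₀ : Ph → ℝ}

/-- The norm of the probability of a touch. -/
def dTh (b T' l₁ l₂ : ℝ) (a : ℕ → ℝ) (hΦ : IsPotential Φ) (f₀ : Ph → ℝ) (w : ℝ) (L : ℕ)
    (η ε t : ℝ) : ℝ≥0∞ := by
  classical
  exact if hε : 0 < ε then Nm b T' l₁ l₂ a t (thL L hΦ hε f₀ η t w) else 0

theorem dTh_pos {b T' l₁ l₂ : ℝ} {a : ℕ → ℝ} {w : ℝ} {L : ℕ} {η ε t : ℝ} (hε : 0 < ε) :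
    dTh b T' l₁ l₂ a hΦ f₀ w L η ε t = Nm b T' l₁ l₂ a t (thL L hΦ hε f₀ η t w) := by
  unfold dTh
  rw [dif_pos hε]

theorem dD_mono (L : ℕ) (a b ε t : ℝ) (ha : 0 < a) (hab : a ≤ b) (hε : 0 < ε) (ht : 0 ≤ t) :
    dD hΦ f₀ L a ε t ≤ dD hΦ f₀ L b ε t := by
  rw [dD_pos hε, dD_pos hε]
  unfold DD
  gcongr
  exact eW_mono (hz_mono_left hab ha ht)

theorem dF_mono (L : ℕ) (a b ε t : ℝ) (ha : 0 < a) (hab : a ≤ b) (hε : 0 < ε) (ht : 0 ≤ t) :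
    dF hΦ f₀ L a ε t ≤ dF hΦ f₀ L b ε t := by
  rw [dF_pos hε, dF_pos hε]
  unfold FF
  gcongr
  exact fW_mono (hz_mono_left hab ha ht)

theorem ind_mono' {p q : Prop} (h : p → q) : ind p ≤ ind q := by
  unfold ind
  by_cases hp : p
  · rw [if_pos hp, if_pos (h hp)]
  · rw [if_neg hp]
    exact zero_le

theorem TT_mono {L : ℕ} {ε : ℝ} {hε : 0 < ε} {a b t w : ℝ} (ha : 0 < a) (hab : a ≤ b)
    (ht : 0 ≤ t) {U : Finset Src} {σ : Src} (h : TT L hΦ hε a t w U σ) :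
    TT L hΦ hε b t w U σ :=
  FB.Sys.Touch.mono h (min_le_min (hz_mono_left hab ha ht) le_rfl)

theorem theta_mono {L : ℕ} {ε : ℝ} {hε : 0 < ε} {a b t w : ℝ} (ha : 0 < a) (hab : a ≤ b)
    (ht : 0 ≤ t) (σ : Src) : theta L hΦ hε f₀ a t w σ ≤ theta L hΦ hε f₀ b t w σ :=
  lintegral_mono fun _ => ind_mono' (TT_mono ha hab ht)

theorem thL_mono {L : ℕ} {ε : ℝ} {hε : 0 < ε} {a b t w : ℝ} (ha : 0 < a) (hab : a ≤ b)
    (ht : 0 ≤ t) (σ : Src) : thL L hΦ hε f₀ a t w σ ≤ thL L hΦ hε f₀ b t w σ := by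
  unfold thL
  by_cases h : σ.2.2 ≤ L
  · rw [if_pos h, if_pos h]
    exact theta_mono ha hab ht σ
  · rw [if_neg h, if_neg h]

theorem Y_mono' {b T' s : ℝ} {n : ℕ} {θ θ' : Src → ℝ≥0∞} (h : ∀ σ, θ σ ≤ θ' σ) :
    PB.Y b T' θ s n ≤ PB.Y b T' θ' s n := by
  unfold PB.Y
  exact lintegral_mono fun z => by
    have := h (s, z, n)
    gcongr

theorem Nm_mono' {b T' l₁ l₂ t : ℝ} {a : ℕ → ℝ} {θ θ' : Src → ℝ≥0∞} (h : ∀ σ, θ σ ≤ θ' σ) :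
    Nm b T' l₁ l₂ a t θ ≤ Nm b T' l₁ l₂ a t θ' := by
  refine Nm_le fun s hs n => le_trans ?_ (le_Nm hs n θ')
  gcongr
  exact Y_mono' h

theorem dTh_mono {b T' l₁ l₂ : ℝ} {α : ℕ → ℝ} {w : ℝ} (L : ℕ) (a c ε t : ℝ) (ha : 0 < a)
    (hab : a ≤ c) (hε : 0 < ε) (ht : 0 ≤ t) :
    dTh b T' l₁ l₂ α hΦ f₀ w L a ε t ≤ dTh b T' l₁ l₂ α hΦ f₀ w L c ε t := by
  rw [dTh_pos hε, dTh_pos hε]
  exact Nm_mono' fun σ => thL_mono ha hab ht σ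

end Vale.Agent.P119.AU
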