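import Vale.Agent.P119.AU.Master
import Vale.Agent.P119.AU.WireMl
import Vale.Agent.P119.KT.RelZero
import Vale.Agent.P119.PB.P9
import Vale.Agent.P119.PB.Op11
import Vale.Agent.P119.PB.Exc5R
import Vale.Agent.P119.PB.In8d

/-!
# P119: Question 1 from P8 and the exceptional laws (`helper185`)

* `Laws hΦ f₀ T`: the exceptional laws (IND, REL), in the form of `PB/P3c`, `PB/ExhW`, `PB/Exc5R`,
  `PB/ContExc`;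
* `P8In`: the inequality P8, for all parameters;
* `pathIn_of`: the inequalities P8 to P11, for the second events `dSE`;
* `questionOne_of_laws`: **Question 1 from P8 and the exceptional laws**.
-/

open MeasureTheory Filter Topology Set ProbabilityTheory
open scoped ENNReal NNReal

noncomputable section

namespace Vale.Agent.P119.AU

open M RB PB GC END EX

/-- **The exceptional laws.** -/
structure Laws {Φ : E3 → ℝ} (hΦ : IsPotential Φ) (f₀ : Ph → ℝ) (T : ℝ) : Prop where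
  e1 : ∀ᶠ L in atTop, ExcE1 Φ f₀ L T
  e2 : ∀ᶠ L in atTop, ExcE2 hΦ f₀ L T
  e3 : ∀ᶠ L in atTop, ExcE3 hΦ f₀ L T
  irr : ∀ β : ℝ, 0 < β → ∀ᶠ L in atTop, ExcIrr Φ f₀ L T β
  ne : ∀ β : ℝ, 0 < β → ∀ᶠ L in atTop, ExcNE Φ f₀ L T β
  rt : ∀ β : ℝ, 0 < β → ∀ᶠ L in atTop, ExcRT hΦ f₀ L T β
  rl : ∀ β : ℝ, 0 < β → ∀ᶠ L in atTop, ExcRL hΦ f₀ L T β
  d1 : ∀ᶠ L in atTop, ContExc.ExcD1 Φ f₀ L T
  d2 : ∀ᶠ L in atTop, ContExc.ExcD2 hΦ f₀ L T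
  d3 : ∀ᶠ L in atTop, ContExc.ExcD3 hΦ f₀ L T
  d4 : ∀ᶠ L in atTop, ContExc.ExcD4 hΦ f₀ L T
  q1 : ∀ᶠ L in atTop, ContExc.ExcQ1 hΦ f₀ L T
  q2 : ∀ᶠ L in atTop, ContExc.ExcQ2 hΦ f₀ L T
  q3 : ∀ᶠ L in atTop, ContExc.ExcQ3 hΦ f₀ L T
  q4 : ∀ᶠ L in atTop, ContExc.ExcQ4 hΦ f₀ L T

/-- **The inequality P8**, for all parameters of the norm. -/
def P8In {Φ : E3 → ℝ} (hΦ : IsPotential Φ) (f₀ : Ph → ℝ) (T b₀ : ℝ) : Prop :=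
  ∀ (m : ℕ → ℝ) (b l₁ l₂ Q : ℝ) (α a : ℕ → ℝ), PB.Par T b₀ m b l₁ l₂ Q α a →
    (∀ᶠ L in atTop, CapT Φ f₀ L T (b₀ / 2) m) →
    ∃ C K p cr, Cst C K cr ∧ In8 T K p cr (dD hΦ f₀) (dTh b T l₁ l₂ a hΦ f₀ T) (dF hΦ f₀)
      (dSE b T l₁ l₂ a hΦ f₀ T) fun L δ => dTh b T l₁ l₂ a hΦ f₀ δ L

variable {Φ : E3 → ℝ} {hΦ : IsPotential Φ} {f₀ : Ph → ℝ} {T κ b₀ b l₁ l₂ Q : ℝ} {m α a : ℕ → ℝ}

/-- The exceptional set of the touches. -/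
theorem Laws.e5 (H : Laws hΦ f₀ T) (hg : GoodDatum f₀ κ) (hP : PB.Par T b₀ m b l₁ l₂ Q α a) :
    ∀ᶠ L in atTop, Exc5 hΦ f₀ L T b l₁ l₂ a := by
  have hb : 0 < b / 2 := by
    have := hP.b0
    positivity
  filter_upwards [H.irr _ hb, H.ne _ hb, H.e1, H.e2, H.rt _ hb, H.rl _ hb] with L h1 h2 h3 h4 h5 h6
  exact exc5_of hg hP.b0 hP.T0 hP.l₁0 hP.l₂0 hP.wts h1 h2 h3 h4 h5 h6

/-- **The inequalities P8 to P11.** -/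
theorem pathIn_of (H : Laws hΦ f₀ T) (h8 : P8In hΦ f₀ T b₀) (hst : IsStable Φ)
    (hg : GoodDatum f₀ κ) (hP : PB.Par T b₀ m b l₁ l₂ Q α a) {M₀ : ℝ} (hM : 0 ≤ M₀)
    (hf : ∀ z, f₀ z ≤ M₀ * Real.exp (-b₀ * ‖z.2‖ ^ 2))
    (hx : ∀ v : E3, ∫⁻ x : E3, ENNReal.ofReal (f₀ (x, v)) ≤
      ENNReal.ofReal (M₀ * Real.exp (-b₀ * ‖v‖ ^ 2)))
    (hcap : ∀ᶠ L in atTop, CapT Φ f₀ L T (b₀ / 2) m) (hI1 : ∀ᶠ L in atTop, Cap.InI1 Φ f₀ L T) :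
    PathIn hΦ f₀ T b l₁ l₂ a (dSE b T l₁ l₂ a hΦ f₀ T) := by
  obtain ⟨B, hB0, hB⟩ := hst
  have hBs : RW.StableWith Φ B := ⟨hB0, hB⟩
  have h5 := H.e5 hg hP
  exact {
    monoS := fun L η η' ε t h0 h hε ht => dSE_mono L η η' ε t h0 h hε ht
    p8 := h8 m b l₁ l₂ Q α a hP hcap
    p9 := in9_of_exc hP hBs hg hM hf hx hcap hI1 H.d1 H.d2 H.d3 H.d4 H.q1 H.q2 H.q3 H.q4 h5
    p10 := in10_of_par hΦ hP hBs hg hM hf hx hcap hI1 H.e3 h5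
    p11 := in11_of_par hΦ hP hBs hg hM hf hx hcap hI1 h5 }

/-- **The inputs of the master assembly.** -/
theorem inputs_of {m₀ : Measurable fun p : E3 × E3 => K1.f0hat f₀ p.1 p.2} {f : ℝ → Ph → ℝ}
    {β' : ℝ} (K : KE.KinFamily hΦ f₀ m₀ T f) (hst : IsStable Φ) (hg : GoodDatum f₀ κ)
    (hd : IsDatum β' f₀) (hT : 0 < T) (H : Laws hΦ f₀ T) (h8 : P8In hΦ f₀ T K.b) :
    Inputs K := by
  have hrel : ∀ L, ML.RelZ Φ f₀ L := KT.relZ_of_kin K hg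
  have hI1 := Cap.ev_i1 K hg hd hT.le hrel
  exact {
    alive := alive_of_relZ K hg hd hT hrel
    i1 := hI1
    nd := Cap.ev_nd K hg hd hT.le hrel
    r := Cap.ev_r K hg hd hT.le hrel
    e1 := H.e1
    e2 := H.e2
    path := fun m b l₁ l₂ Q α a hP hcap => ⟨dSE b T l₁ l₂ a hΦ f₀ T,
      pathIn_of H h8 hst hg hP K.M0 (f0_le K) (f0_mass K) hcap hI1⟩ }

/-- **Question 1 from P8 and the exceptional laws.** -/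
theorem questionOne_of_laws
    (H : ∀ (Φ : E3 → ℝ) (β T κ b₀ M₀ : ℝ) (f₀ : Ph → ℝ) (hΦ : IsPotential Φ),
      IsStable Φ → 0 < β → 0 < T → IsDatum β f₀ → GoodDatum f₀ κ → 0 < b₀ → 0 ≤ M₀ →
      (∀ z, f₀ z ≤ M₀ * Real.exp (-b₀ * ‖z.2‖ ^ 2)) →
      (∀ v : E3, ∫⁻ x : E3, ENNReal.ofReal (f₀ (x, v)) ≤
        ENNReal.ofReal (M₀ * Real.exp (-b₀ * ‖v‖ ^ 2))) →
      (∀ᶠ L in atTop, Cap.InI1 Φ f₀ L T) →
      (∃ m, KE.SuperExp m ∧ (∀ n, 0 ≤ m n) ∧ ∀ᶠ L in atTop, CapT Φ f₀ L T (b₀ / 2) m) →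
      BadS Φ f₀ T → Laws hΦ f₀ T ∧ P8In hΦ f₀ T b₀) :
    Stmt.QuestionOne (E := E3) Bridge.lat := by
  refine questionOne_of_inputs fun Φ β T κ f₀ f hΦ hst hβ hT hd h hg K => ?_
  have hrel : ∀ L, ML.RelZ Φ f₀ L := KT.relZ_of_kin K hg
  have hI1 := Cap.ev_i1 K hg hd hT.le hrel
  have hnd := Cap.ev_nd K hg hd hT.le hrel
  have hr := Cap.ev_r K hg hd hT.le hrel
  obtain ⟨m, hm0, hm, hcap⟩ := exists_capT hΦ hg K.b0 hT.le K.M0 (f0_le K)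
    (fun d => K.nn_nonneg d) (fun j => K.rr_nonneg hT.le j) K.nn_superExp (K.rr_superExp hT.le)
  have hcap' : ∀ᶠ L in atTop, CapT Φ f₀ L T (K.b / 2) m := by
    filter_upwards [hI1, hnd, hr] with L h1 h2 h3
    exact hcap L h1 h2 h3
  obtain ⟨h1, h2⟩ := H Φ β T κ K.b K.M f₀ hΦ hst hβ hT hd hg K.b0 K.M0 (f0_le K) (f0_mass K) hI1
    ⟨m, hm, hm0, hcap'⟩ (badPP_small K hg hd hT)
  exact inputs_of K hst hg hd hT h1 h2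

end Vale.Agent.P119.AU
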