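import Vale.Agent.P119.KT.Shape
import Vale.Agent.P119.KU.Scat11

/-!
# P119, glue: the tree measure of `KT` and the trees of the M-world (`helper376`)

* `kt_rel`, `hit_rel_iff`, `pm_scat`, `pm_scatI`: the pairs of lines of `KT/Pair` are those of `KU`;
* `treeOf τ z : CTree`, `ln_treeOf`, `mem_col_of_ok`: the tree with the leaf data `z : LD τ`;
* `flat τ : LD τ ≃ᵐ (Fin τ.card → Ph)`, `ord_flat`, `pld ν τ` = product of `ν` on the leaf data,
  `measurePreserving_flat`.
-/

open MeasureTheory Filter Topology Set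
open scoped ENNReal NNReal

noncomputable section

namespace Vale.Agent.P119.AU

open KU M CTree

/-! ### Pairs of lines -/

theorem kt_rel (ε : ℝ) (q : Ph × Ph) : KT.rel ε q = KU.rel ε q := rfl

theorem hit_iff {p : Ph} (hp : p.2 ≠ 0) : KT.Hit p ↔ ‖perp p‖ < 1 := by
  have h1 := norm_free_sq p 0
  rw [KU.free] at h1
  have h0 : 0 < ‖p.2‖ ^ 2 := by positivity
  have h3 : (inner ℝ p.1 p.2 : ℝ) = crd p * ‖p.2‖ ^ 2 := by
    unfold crd
    field_simp
  have h4 : ‖p.1‖ ^ 2 = ‖perp p‖ ^ 2 + crd p ^ 2 * ‖p.2‖ ^ 2 := by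
    simpa using h1
  unfold KT.Hit
  have h5 : ‖p.1‖ ^ 2 * ‖p.2‖ ^ 2 - (inner ℝ p.1 p.2 : ℝ) ^ 2 = ‖perp p‖ ^ 2 * ‖p.2‖ ^ 2 := by
    rw [h3, h4]
    ring
  rw [h5]
  constructor
  · intro h
    have h6 : ‖perp p‖ ^ 2 < 1 := by
      by_contra h7
      push Not at h7
      nlinarith
    nlinarith [norm_nonneg (perp p)]
  · intro h
    have h6 : ‖perp p‖ ^ 2 < 1 := by nlinarith [norm_nonneg (perp p)]
    nlinarith

theorem hit_rel_iff {ε : ℝ} {q : Ph × Ph} : KT.Hit (KT.rel ε q) ↔ Meets ε q := by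
  rw [kt_rel]
  constructor
  · intro h
    have h1 : (KU.rel ε q).2 ≠ 0 := h.ne
    exact ⟨h1, (hit_iff h1).1 h⟩
  · intro h
    exact (hit_iff (p := KU.rel ε q) h.1).2 h.2

theorem pm_eq (S : Ph → Ph) (ε : ℝ) (q : Ph × Ph) :
    KT.pm S ε q = mk2 ε (com q) (S (KU.rel ε q)) := by
  have h1 : KT.dil ε⁻¹ (KT.cr q).2 = KU.rel ε q := rfl
  unfold KT.pm
  rw [h1]
  unfold KT.crI KT.cr KT.dil mk2 com
  ext1
  · ext1
    · simp only [Prod.fst_add, Prod.smul_fst, Prod.fst_sub]
      module
    · simp only [Prod.snd_add, Prod.smul_snd, Prod.snd_sub]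
      module
  · ext1
    · simp only [Prod.fst_sub, Prod.smul_fst]
      module
    · simp only [Prod.snd_sub, Prod.smul_snd]
      module

theorem pm_scat (Φ : E3 → ℝ) (ε : ℝ) (q : Ph × Ph) : KT.pm (scat Φ) ε q = sc2 Φ ε q :=
  pm_eq _ _ _

theorem pm_scatI (Φ : E3 → ℝ) (ε : ℝ) (q : Ph × Ph) :
    KT.pm (KT.scatI Φ) ε q = sc2inv Φ ε q := by
  rw [pm_eq]
  unfold KT.scatI sc2inv
  have h1 : KU.rel ε (rev q.1, rev q.2) = rev (KU.rel ε q) := rel_rev q
  have h2 : com (rev q.1, rev q.2) = rev (com q) := com_rev q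
  unfold sc2
  rw [h1, h2]
  rw [show mk2 ε (com q) (rev (scat Φ (rev (KU.rel ε q)))) =
    mk2 ε (rev (rev (com q))) (rev (scat Φ (rev (KU.rel ε q)))) by rw [rev_rev], mk2_rev]

/-! ### Trees -/

/-- The tree of the shape `τ` with the leaf data `z`. -/
def treeOf : (τ : Shape) → KT.LD τ → CTree
  | .leaf, z => CTree.leaf (src z)
  | .node a b, z => CTree.node (treeOf a z.1) (treeOf b z.2)

theorem ln_treeOf (Φ : E3 → ℝ) (ε : ℝ) :
    ∀ (τ : Shape) (z : KT.LD τ), ln Φ ε (treeOf τ z) = KT.root Φ ε τ z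
  | .leaf, _ => rfl
  | .node a b, z => by
    have h1 : ln Φ ε (treeOf (.node a b) z) =
      (sc2 Φ ε (ln Φ ε (treeOf a z.1), ln Φ ε (treeOf b z.2))).1 := rfl
    rw [h1, ln_treeOf Φ ε a, ln_treeOf Φ ε b, ← pm_scat]
    rfl

theorem mem_col_of_ok {Φ : E3 → ℝ} {ε : ℝ} :
    ∀ (τ : Shape) (z : KT.LD τ), ok Φ ε (treeOf τ z) → z ∈ KT.col Φ ε τ
  | .leaf, _, _ => trivial
  | .node a b, z, h => by
    obtain ⟨h1, h2, _, h4, h5, _, _⟩ := h
    rw [ln_treeOf, ln_treeOf] at h4 h5
    exact ⟨⟨mem_col_of_ok a z.1 h1, mem_col_of_ok b z.2 h2⟩, hit_rel_iff.2 h4, h5⟩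

theorem card_treeOf : ∀ (τ : Shape) (z : KT.LD τ), (treeOf τ z).card = τ.card
  | .leaf, _ => rfl
  | .node a b, z => by
    show (treeOf a z.1).card + (treeOf b z.2).card = _
    rw [card_treeOf a, card_treeOf b]
    rfl

theorem depth_treeOf : ∀ (τ : Shape) (z : KT.LD τ), (treeOf τ z).depth = τ.depth
  | .leaf, _ => rfl
  | .node a b, z => by
    show max (treeOf a z.1).depth (treeOf b z.2).depth + 1 = _
    rw [depth_treeOf a, depth_treeOf b]
    rfl

/-! ### Leaf data as tuples -/

/-- Concatenation of tuples, as a measurable equivalence. -/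
def appendEquiv (m n : ℕ) (α : Type*) [MeasurableSpace α] :
    (Fin m → α) × (Fin n → α) ≃ᵐ (Fin (m + n) → α) where
  toFun p := Fin.append p.1 p.2
  invFun z := (fun i => z (Fin.castAdd n i), fun i => z (Fin.natAdd m i))
  left_inv p := by
    ext i
    · simp
    · simp
  right_inv z := by
    ext i
    refine Fin.addCases (fun j => ?_) (fun j => ?_) i
    · simp
    · simp
  measurable_toFun := by
    rw [measurable_pi_iff]
    intro i
    refine Fin.addCases (fun j => ?_) (fun j => ?_) i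
    · simp only [Equiv.coe_fn_mk, Fin.append_left]
      fun_prop
    · simp only [Equiv.coe_fn_mk, Fin.append_right]
      fun_prop
  measurable_invFun := by
    refine Measurable.prodMk ?_ ?_
    · rw [measurable_pi_iff]
      exact fun i => measurable_pi_apply _
    · rw [measurable_pi_iff]
      exact fun i => measurable_pi_apply _

theorem measurePreserving_append (m n : ℕ) {α : Type*} [MeasurableSpace α] (ν : Measure α)
    [SigmaFinite ν] :
    MeasurePreserving (appendEquiv m n α)
      ((Measure.pi fun _ : Fin m => ν).prod (Measure.pi fun _ : Fin n => ν))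
      (Measure.pi fun _ : Fin (m + n) => ν) := by
  refine ⟨(appendEquiv m n α).measurable, ?_⟩
  symm
  refine Measure.pi_eq fun s hs => ?_
  rw [Measure.map_apply (appendEquiv m n α).measurable (MeasurableSet.univ_pi hs)]
  have h1 : (appendEquiv m n α) ⁻¹' (univ.pi s) =
      (univ.pi fun i : Fin m => s (Fin.castAdd n i)) ×ˢ
        (univ.pi fun i : Fin n => s (Fin.natAdd m i)) := by
    ext p
    simp only [mem_preimage, Set.mem_pi, mem_univ, true_implies, mem_prod]
    constructor
    · intro h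
      refine ⟨fun i => ?_, fun i => ?_⟩
      · have := h (Fin.castAdd n i)
        simpa [appendEquiv] using this
      · have := h (Fin.natAdd m i)
        simpa [appendEquiv] using this
    · rintro ⟨h1, h2⟩ i
      refine Fin.addCases (fun j => ?_) (fun j => ?_) i
      · simpa [appendEquiv] using h1 j
      · simpa [appendEquiv] using h2 j
  rw [h1, Measure.prod_prod, Measure.pi_pi, Measure.pi_pi, Fin.prod_univ_add]

/-- The product of `ν` on the leaf data. -/
def pld (ν : Measure Ph) : (τ : Shape) → Measure (KT.LD τ)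
  | .leaf => ν
  | .node a b => (pld ν a).prod (pld ν b)

theorem pld_volume : ∀ τ : Shape, pld volume τ = KT.vol τ
  | .leaf => rfl
  | .node a b => by
    show (pld volume a).prod (pld volume b) = (KT.vol a).prod (KT.vol b)
    rw [pld_volume a, pld_volume b]

instance instSigmaFinitePld (ν : Measure Ph) [SigmaFinite ν] : (τ : Shape) → SigmaFinite (pld ν τ)
  | .leaf => inferInstanceAs (SigmaFinite ν)
  | .node a b => by
    have := instSigmaFinitePld ν a
    have := instSigmaFinitePld ν b
    exact inferInstanceAs (SigmaFinite ((pld ν a).prod (pld ν b)))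

/-- The leaf data as a tuple. -/
def flat : (τ : Shape) → KT.LD τ ≃ᵐ (Fin τ.card → Ph)
  | .leaf => (MeasurableEquiv.funUnique (Fin 1) Ph).symm
  | .node a b => (MeasurableEquiv.prodCongr (flat a) (flat b)).trans
      (appendEquiv a.card b.card Ph)

theorem flat_node (a b : Shape) (z : KT.LD (.node a b)) :
    flat (.node a b) z = Fin.append (flat a z.1) (flat b z.2) := rfl

theorem ord_flat : ∀ (τ : Shape) (z : KT.LD τ), τ.ord (flat τ z) = treeOf τ z
  | .leaf, _ => rfl
  | .node a b, z => by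
    have ha := ord_flat a z.1
    have hb := ord_flat b z.2
    unfold Shape.ord at ha hb ⊢
    rw [flat_node]
    show CTree.node (a.mk fun i => src (Fin.append (flat a z.1) (flat b z.2)
      (Fin.castAdd b.card i))) (b.mk fun i => src (Fin.append (flat a z.1) (flat b z.2)
      (Fin.natAdd a.card i))) = CTree.node (treeOf a z.1) (treeOf b z.2)
    simp only [Fin.append_left, Fin.append_right]
    rw [ha, hb]

theorem measurePreserving_flat (ν : Measure Ph) [SigmaFinite ν] :
    ∀ τ : Shape, MeasurePreserving (flat τ) (pld ν τ) (Measure.pi fun _ : Fin τ.card => ν)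
  | .leaf => (measurePreserving_funUnique ν (Fin 1)).symm
  | .node a b => by
    have := instSigmaFinitePld ν a
    have := instSigmaFinitePld ν b
    exact (measurePreserving_append a.card b.card ν).comp
      ((measurePreserving_flat ν a).prod (measurePreserving_flat ν b))

/-- Integration over the tuples of leaves is integration over the leaf data. -/
theorem lintegral_flat (ν : Measure Ph) [SigmaFinite ν] (τ : Shape) (F : (Fin τ.card → Ph) → ℝ≥0∞) :
    ∫⁻ z, F z ∂(Measure.pi fun _ : Fin τ.card => ν) = ∫⁻ z, F (flat τ z) ∂(pld ν τ) := by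
  rw [← (measurePreserving_flat ν τ).map_eq, lintegral_map_equiv]

/-- Integration of functions of trees with independent leaves. -/
theorem lintegral_ord (ν : Measure Ph) [SigmaFinite ν] (τ : Shape) (F : CTree → ℝ≥0∞) :
    ∫⁻ z, F (τ.ord z) ∂(Measure.pi fun _ : Fin τ.card => ν) =
      ∫⁻ z, F (treeOf τ z) ∂(pld ν τ) := by
  rw [lintegral_flat]
  simp only [ord_flat]

end Vale.Agent.P119.AU
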