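import Vale.Agent.P119.AU.Flat
import Vale.Agent.P119.PB.ExcIrrs
import Vale.Agent.P119.PB.ExcIrr
import Vale.Agent.P119.PB.ExcNE2
import Vale.Agent.P119.PB.ExcE2
import Vale.Agent.P119.PB.ExcDep
import Vale.Agent.P119.PB.ExcD34
import Vale.Agent.P119.PB.ExcRL
import Vale.Agent.P119.PB.ExcRT
import Vale.Agent.P119.PB.ExcQ1Fin
import Vale.Agent.P119.PB.GoodPLaw
import Vale.Agent.P119.PB.ExcQ34

/-!
# P119: the exceptional laws (`helper423`, `helper347`)

`laws_of`: the structure `Laws` of `AU/Flat`.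
-/

open MeasureTheory Filter Topology Set ProbabilityTheory
open scoped ENNReal NNReal

noncomputable section

namespace Vale.Agent.P119.AU

open M RB PB GC END EX

/-- **The exceptional laws.** -/
theorem laws_of {Φ : E3 → ℝ} (hΦ : IsPotential Φ) {f₀ : Ph → ℝ} {T κ b₀ M₀ : ℝ}
    (hg : GoodDatum f₀ κ) (hT : 0 < T) (hb : 0 < b₀) (hM : 0 ≤ M₀)
    (hf : ∀ z, f₀ z ≤ M₀ * Real.exp (-b₀ * ‖z.2‖ ^ 2))
    (hx : ∀ v : E3, ∫⁻ x : E3, ENNReal.ofReal (f₀ (x, v)) ≤
      ENNReal.ofReal (M₀ * Real.exp (-b₀ * ‖v‖ ^ 2))) : Laws hΦ f₀ T where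
  e1 := Eventually.of_forall fun L => XT.excE1 hg hΦ hb hM hf hM hx hT.le L
  e2 := Eventually.of_forall fun L => RelX.excE2 hg hΦ hb hM hf hM hx hT.le L
  e3 := Eventually.of_forall fun L => RLn.excE3 hg hΦ hb hM hf hM hx hT.le L
  irr := fun _ hβ => Eventually.of_forall fun L => excIrr hΦ hg hb hT hM hf hx hβ L
  ne := fun _ hβ => Eventually.of_forall fun L => NE.excNE hg hΦ hb hM hf hM hx hT.le hβ L
  rt := fun _ hβ => Eventually.of_forall fun L => HL.excRT hg hΦ hb hM hf hM hx hT.le L hβ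
  rl := fun _ hβ => Eventually.of_forall fun L => RLn.excRL hg hΦ hb hβ hM hf hM hx hT.le L
  d1 := Eventually.of_forall fun L => XT.excD1 hg hΦ hb hM hf hM hx hT.le L
  d2 := Eventually.of_forall fun L => XR.excD2 hg hΦ hb hM hf hM hx hT.le L
  d3 := Eventually.of_forall fun L => RLn.excD3 hg hΦ hb hM hf hM hx hT.le L
  d4 := Eventually.of_forall fun L => RLn.excD4 hg hΦ hb hM hf hM hx hT.le L
  q1 := Eventually.of_forall fun L => XT.excQ1 hg hΦ hb hM hf hM hx hT.le L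
  q2 := Eventually.of_forall fun L => XR.excQ2 hg hΦ hb hM hf hM hx hT.le L
  q3 := Eventually.of_forall fun L => XR.excQ3 hg hΦ hb hM hf hM hx hT.le L
  q4 := Eventually.of_forall fun L => XR.excQ4 hg hΦ hb hM hf hM hx hT.le L

end Vale.Agent.P119.AU
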