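import Vale.Agent.P119.AU.LawsFill

/-!
# P119: the exceptional laws (`helper347`)

`laws_of` is in `AU/LawsFill`.
-/
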