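import Vale.Agent.P119.PB.Par
import Vale.Agent.P119.END.Final

/-!
# P119: the master assembly (`helper423`, with `helper376`, `helper185`)

`Inputs`: the missing inputs, each with its owner; `questionOne_of_inputs`: **Q1 from the inputs**.

Inputs and owners:
* `alive` (`AliveENN`): `helper576`, `helper388`, `helper256`, `helper860`;
* `i1`, `nd` (CAP0): `helper67`, `helper667`;  `r` (CAP0): `helper755`;
* `e1` (IND): `helper810`;  `e2` (REL): `helper423`, `helper228`, `helper384`;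
* `p8`: `helper778`, `helper178`, `helper690`;  `p9`: `helper909`, `helper456`;
* `p10`, `p11`: `helper347`, `helper336`;  `monoS`: `helper185`.
-/

open MeasureTheory Filter Topology Set ProbabilityTheory
open scoped ENNReal NNReal

noncomputable section

namespace Vale.Agent.P119.AU

open M RB PB GC END

variable {Φ : E3 → ℝ} {hΦ : IsPotential Φ} {f₀ : Ph → ℝ}
  {m₀ : Measurable fun p : E3 × E3 => K1.f0hat f₀ p.1 p.2} {T κ : ℝ} {f : ℝ → Ph → ℝ}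

/-- The datum is Gaussian. -/
theorem f0_le (K : KE.KinFamily hΦ f₀ m₀ T f) (z : Ph) :
    f₀ z ≤ K.M * Real.exp (-K.b * ‖z.2‖ ^ 2) := by
  have h := K.f0_le z.1 z.2
  have h1 : K1.f0hat f₀ z.1 z.2 = ENNReal.ofReal (f₀ z) := rfl
  rw [h1] at h
  unfold KE.gs at h
  have h2 : 0 ≤ K.M * Real.exp (-K.b * ‖z.2‖ ^ 2) := mul_nonneg K.M0 (Real.exp_nonneg _)
  exact (ENNReal.ofReal_le_ofReal_iff h2).1 h

/-- The velocity marginal of the datum is Gaussian. -/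
theorem f0_mass (K : KE.KinFamily hΦ f₀ m₀ T f) (v : E3) :
    ∫⁻ x : E3, ENNReal.ofReal (f₀ (x, v)) ≤
      ENNReal.ofReal (K.M * Real.exp (-K.b * ‖v‖ ^ 2)) := K.f0_mass v

/-- **The inequalities P8, P9, P10, P11** for the parameters `b, l₁, l₂, a` of the norm. -/
structure PathIn (hΦ : IsPotential Φ) (f₀ : Ph → ℝ) (T b l₁ l₂ : ℝ) (a : ℕ → ℝ)
    (SE : ℕ → ℝ → ℝ → ℝ → ℝ≥0∞) : Prop where
  monoS : ∀ L a b ε t, 0 < a → a ≤ b → 0 < ε → 0 ≤ t → SE L a ε t ≤ SE L b ε t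
  p8 : ∃ C K p cr, Cst C K cr ∧ In8 T K p cr (dD hΦ f₀) (dTh b T l₁ l₂ a hΦ f₀ T) (dF hΦ f₀)
      SE fun L δ => dTh b T l₁ l₂ a hΦ f₀ δ L
  p9 : ∃ C K cr, Cst C K cr ∧ In9 T C K cr (dD hΦ f₀) (dTh b T l₁ l₂ a hΦ f₀ T) SE
  p10 : ∃ C K cr, Cst C K cr ∧ In10 T K cr (dD hΦ f₀) (dTh b T l₁ l₂ a hΦ f₀ T) (dF hΦ f₀)
      fun L δ => dTh b T l₁ l₂ a hΦ f₀ δ L
  p11 : ∃ C K cr, Cst C K cr ∧ In11 T C K cr (dD hΦ f₀) (dTh b T l₁ l₂ a hΦ f₀ T)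
      (dF hΦ f₀) SE

/-- **The inputs of the proof.** -/
structure Inputs (K : KE.KinFamily hΦ f₀ m₀ T f) : Prop where
  alive : ∀ s, AliveENN f₀ T (uK K) (AL Φ) (MY Φ) s
  i1 : ∀ᶠ L in atTop, Cap.InI1 Φ f₀ L T
  nd : ∀ᶠ L in atTop, Cap.InNd Φ f₀ L T K.nn K.b
  r : ∀ᶠ L in atTop, Cap.InR Φ f₀ L T K.rr
  e1 : ∀ᶠ L in atTop, ExcE1 Φ f₀ L T
  e2 : ∀ᶠ L in atTop, ExcE2 hΦ f₀ L T
  path : ∀ (m : ℕ → ℝ) (b l₁ l₂ Q : ℝ) (α a : ℕ → ℝ), PB.Par T K.b m b l₁ l₂ Q α a →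
    (∀ᶠ L in atTop, CapT Φ f₀ L T (K.b / 2) m) →
    ∃ SE : ℕ → ℝ → ℝ → ℝ → ℝ≥0∞, PathIn hΦ f₀ T b l₁ l₂ a SE

/-- **The correctness of the M-paths from the inputs.** -/
theorem pathENN_of_inputs (hst : IsStable Φ) (hT : 0 < T) (hg : GoodDatum f₀ κ)
    {K : KE.KinFamily hΦ f₀ m₀ T f} (H : Inputs K) :
    PathENN Φ f₀ T (AL Φ) (MY Φ) := by
  obtain ⟨B, hB0, hB⟩ := hst
  obtain ⟨m, hm0, hm, hcap⟩ := exists_capT hΦ hg K.b0 hT.le K.M0 (f0_le K)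
    (fun d => K.nn_nonneg d) (fun j => K.rr_nonneg hT.le j) K.nn_superExp (K.rr_superExp hT.le)
  have hcap' : ∀ᶠ L in atTop, CapT Φ f₀ L T (K.b / 2) m := by
    filter_upwards [H.i1, H.nd, H.r] with L h1 h2 h3
    exact hcap L h1 h2 h3
  obtain ⟨b, l₁, l₂, Q, α, a, hP⟩ := exists_par hT K.b0 hm0 hm
  obtain ⟨SE, hS⟩ := H.path m b l₁ l₂ Q α a hP hcap'
  exact pathENN_of_in (hΦ := hΦ) (B := B) ⟨hB0, hB⟩ hg hT K.b0 K.M0 (f0_le K) (f0_mass K) hP.b0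
    hP.wts hP.l₁0 hP.l₂0 hS.monoS
    (in3_of_par hP hg K.M0 (f0_le K) hcap' H.i1 H.e1 H.e2 SE) hS.p8 hS.p9 hS.p10 hS.p11

/-- **Question 1 from the inputs.** -/
theorem questionOne_of_inputs
    (H : ∀ (Φ : E3 → ℝ) (β T κ : ℝ) (f₀ : Ph → ℝ) (f : ℝ → Ph → ℝ) (hΦ : IsPotential Φ),
      IsStable Φ → 0 < β → ∀ (hT : 0 < T), IsDatum β f₀ → ∀ (h : RegSol Φ β f₀ T f),
      GoodDatum f₀ κ → ∀ K : KE.KinFamily hΦ f₀ (K1.measurable_f0hat hT h) T f,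
        Inputs K) :
    Stmt.QuestionOne (E := E3) Bridge.lat :=
  questionOne_of_alive fun Φ β T κ f₀ f hΦ hst hβ hT hd h hg K =>
    ⟨(H Φ β T κ f₀ f hΦ hst hβ hT hd h hg K).alive,
      pathENN_of_inputs hst hT hg (H Φ β T κ f₀ f hΦ hst hβ hT hd h hg K)⟩

end Vale.Agent.P119.AU
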