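import Vale.Agent.P119.AU.LawsFill
import Vale.Agent.P119.PB.P8In

/-!
# P119: Question 1

`questionOne`: for every stable potential, every datum, every regular kinetic interval `[0, T]` with
its solution `f` and every `s`, the rescaled factorial marginals of order `s` converge to
`f(t)^{⊗ s}` in `L¹`, uniformly on `[0, T]`.
-/

open MeasureTheory Filter Topology Set ProbabilityTheory
open scoped ENNReal NNReal

noncomputable section

namespace Vale.Agent.P119.AU

open M RB PB GC END EX

/-- **Question 1.** -/
theorem questionOne : Stmt.QuestionOne (E := E3) Bridge.lat :=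
  questionOne_of_laws fun _ _ _ _ _ _ _ hΦ hst _ hT _ hg hb hM hf hx hI1 _ hbad =>
    ⟨laws_of hΦ hg hT hb hM hf hx, p8In hΦ hst hg hb hM hf hx hI1 hbad⟩

end Vale.Agent.P119.AU
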