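import Vale.Agent.P119.KE.Order2

/-!
# P119, AUDIT/GLUE: from the natural forms of the inequalities of the feedback block to the
hypotheses of `KE.feedback_limit` (`helper376`)

* `absorb`: a term `(1/2) θ_{η'}` on the right-hand side (contraction of the collision operator, at
  the next stopping level) can be absorbed, across the stopping levels;
* `RawSys`: the inequalities P3 (F), P8 (SE), P9 (D), P10 (window `W^δ`), P11 (Θ);
* `RawSys.limit`: the conclusion of `feedback_limit`.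
-/

open MeasureTheory Filter Topology Set
open scoped ENNReal NNReal

noncomputable section

namespace Vale.Agent.P119.AU

/-- **Absorption across the stopping levels.** -/
theorem absorb {T M B : ℝ} {θ S : ℝ → ℝ → ℝ → ℝ≥0∞}
    (mono : ∀ a b ε t : ℝ, 0 < a → a ≤ b → 0 < ε → t ∈ Icc 0 T → S a ε t ≤ S b ε t)
    (raw : ∀ a b : ℝ, 0 < a → a < b → b ≤ B → ∀ ρ : ℝ, 0 < ρ → ∀ᶠ ε in 𝓝[>] (0 : ℝ),
      ∀ t ∈ Icc 0 T, θ a ε t ≤ ENNReal.ofReal ρ + S b ε t + ENNReal.ofReal (1 / 2) * θ b ε t)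
    (crude : ∀ a ∈ Ioc (0 : ℝ) B, ∀ᶠ ε in 𝓝[>] (0 : ℝ), ∀ t ∈ Icc 0 T,
      θ a ε t ≤ ENNReal.ofReal M)
    {η η' : ℝ} (h0 : 0 < η) (hη : η < η') (h1 : η' ≤ B) {ρ : ℝ} (hρ : 0 < ρ) :
    ∀ᶠ ε in 𝓝[>] (0 : ℝ), ∀ t ∈ Icc 0 T, θ η ε t ≤ ENNReal.ofReal ρ + 2 * S η' ε t := by
  have hhalf : ENNReal.ofReal (1 / 2) * 2 = 1 := by
    rw [show (2 : ℝ≥0∞) = ENNReal.ofReal 2 by simp, ← ENNReal.ofReal_mul (by norm_num)]
    norm_num
  obtain ⟨N, hN, hMN⟩ : ∃ N : ℝ, 0 ≤ N ∧ M ≤ N := ⟨max M 0, le_max_right _ _, le_max_left _ _⟩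
  have key : ∀ n : ℕ, ∀ a b : ℝ, 0 < a → a < b → b ≤ B → ∀ ρ : ℝ, 0 < ρ →
      ∀ᶠ ε in 𝓝[>] (0 : ℝ), ∀ t ∈ Icc 0 T,
        θ a ε t ≤ ENNReal.ofReal ρ + 2 * S b ε t + ENNReal.ofReal ((1 / 2) ^ n * N) := by
    intro n
    induction n with
    | zero =>
      intro a b ha hab hb ρ hρ
      filter_upwards [crude a ⟨ha, hab.le.trans hb⟩] with ε hε t ht
      refine (hε t ht).trans ((ENNReal.ofReal_le_ofReal hMN).trans ?_)
      rw [pow_zero, one_mul]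
      exact le_add_left le_rfl
    | succ n ih =>
      intro a b ha hab hb ρ hρ
      have hm1 : a < (a + b) / 2 := by linarith
      have hm2 : (a + b) / 2 < b := by linarith
      filter_upwards [raw a ((a + b) / 2) ha hm1 (hm2.le.trans hb) (ρ / 2) (by positivity),
        ih ((a + b) / 2) b (by linarith) hm2 hb ρ hρ, self_mem_nhdsWithin] with ε h2 h3 h4 t ht
      have h5 := h3 t ht
      have hS := mono ((a + b) / 2) b ε t (ha.trans hm1) hm2.le h4 ht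
      calc θ a ε t ≤ ENNReal.ofReal (ρ / 2) + S ((a + b) / 2) ε t +
            ENNReal.ofReal (1 / 2) * θ ((a + b) / 2) ε t := h2 t ht
        _ ≤ ENNReal.ofReal (ρ / 2) + S b ε t + ENNReal.ofReal (1 / 2) *
            (ENNReal.ofReal ρ + 2 * S b ε t + ENNReal.ofReal ((1 / 2) ^ n * N)) := by gcongr
        _ = (ENNReal.ofReal (ρ / 2) + ENNReal.ofReal (1 / 2) * ENNReal.ofReal ρ) +
            (S b ε t + (ENNReal.ofReal (1 / 2) * 2) * S b ε t) +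
            ENNReal.ofReal (1 / 2) * ENNReal.ofReal ((1 / 2) ^ n * N) := by ring
        _ = ENNReal.ofReal ρ + 2 * S b ε t + ENNReal.ofReal ((1 / 2) ^ (n + 1) * N) := by
          rw [hhalf, one_mul, ← ENNReal.ofReal_mul (by norm_num : (0 : ℝ) ≤ 1 / 2),
            ← ENNReal.ofReal_mul (by norm_num : (0 : ℝ) ≤ 1 / 2),
            ← ENNReal.ofReal_add (by positivity) (by positivity), two_mul]
          congr 2
          · congr 1
            ring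
          · rw [pow_succ]
            ring
  obtain ⟨n, hn⟩ : ∃ n : ℕ, (1 / 2 : ℝ) ^ n * N ≤ ρ / 2 := by
    have h1 : Tendsto (fun n : ℕ => (1 / 2 : ℝ) ^ n * N) atTop (𝓝 (0 * N)) :=
      (tendsto_pow_atTop_nhds_zero_of_lt_one (by norm_num) (by norm_num)).mul_const _
    rw [zero_mul] at h1
    exact (h1.eventually (ge_mem_nhds (show (0 : ℝ) < ρ / 2 by positivity))).exists
  filter_upwards [key n η η' h0 hη h1 (ρ / 2) (by positivity)] with ε h2 t ht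
  calc θ η ε t ≤ ENNReal.ofReal (ρ / 2) + 2 * S η' ε t + ENNReal.ofReal ((1 / 2) ^ n * N) :=
        h2 t ht
    _ ≤ ENNReal.ofReal (ρ / 2) + 2 * S η' ε t + ENNReal.ofReal (ρ / 2) := by
      gcongr
    _ = ENNReal.ofReal ρ + 2 * S η' ε t := by
      rw [add_right_comm, ← ENNReal.ofReal_add (by positivity) (by positivity)]
      congr 2
      ring

/-- The inequalities of the feedback block in their natural forms.  `L` is the depth, `η` the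
stopping level, `ε` the scale, `t` the time.  `SE`: second events, `W L δ`: touch probability of a
fresh line in the window `δ` after its birth. -/
structure RawSys (T C K : ℝ) (p : ℕ) (cr Mb : ℕ → ℝ) (D Θ F SE : ℕ → ℝ → ℝ → ℝ → ℝ≥0∞)
    (W : ℕ → ℝ → ℝ → ℝ → ℝ → ℝ≥0∞) : Prop where
  C0 : 0 ≤ C
  K1 : 1 ≤ K
  cr0 : ∀ L, 0 ≤ cr L
  monoD : ∀ L a b ε t, 0 < a → a ≤ b → 0 < ε → 0 ≤ t → D L a ε t ≤ D L b ε t
  monoΘ : ∀ L a b ε t, 0 < a → a ≤ b → 0 < ε → 0 ≤ t → Θ L a ε t ≤ Θ L b ε t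
  monoF : ∀ L a b ε t, 0 < a → a ≤ b → 0 < ε → 0 ≤ t → F L a ε t ≤ F L b ε t
  monoS : ∀ L a b ε t, 0 < a → a ≤ b → 0 < ε → 0 ≤ t → SE L a ε t ≤ SE L b ε t
  bd : ∀ᶠ L in atTop, ∀ η ∈ Ioc (0 : ℝ) 1, ∀ᶠ ε in 𝓝[>] (0 : ℝ), ∀ t ∈ Icc 0 T,
    D L η ε t ≤ ENNReal.ofReal (Mb L) ∧ Θ L η ε t ≤ ENNReal.ofReal (Mb L) ∧
      F L η ε t ≤ ENNReal.ofReal (Mb L)
  bdW : ∀ᶠ L in atTop, ∀ δ ∈ Ioc (0 : ℝ) 1, ∀ η ∈ Ioc (0 : ℝ) 1, ∀ᶠ ε in 𝓝[>] (0 : ℝ),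
    ∀ t ∈ Icc 0 T, W L δ η ε t ≤ ENNReal.ofReal (Mb L)
  p3 : ∀ᶠ L in atTop, ∀ η η' : ℝ, 0 < η → η < η' → η' ≤ 1 → ∀ ρ : ℝ, 0 < ρ →
    ∀ᶠ ε in 𝓝[>] (0 : ℝ), ∀ t ∈ Icc 0 T, F L η ε t ≤ ENNReal.ofReal (K ^ L * cr L + ρ) +
      ENNReal.ofReal C * Θ L η' ε t + ENNReal.ofReal (K ^ L) * SE L η' ε t
  p9 : ∀ᶠ L in atTop, ∀ η η' : ℝ, 0 < η → η < η' → η' ≤ 1 → ∀ ρ : ℝ, 0 < ρ →
    ∀ᶠ ε in 𝓝[>] (0 : ℝ), ∀ t ∈ Icc 0 T, D L η ε t ≤ ENNReal.ofReal (K ^ L * cr L + ρ) +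
      ENNReal.ofReal C * (∫⁻ s in Icc 0 t, (D L η' ε s + Θ L η' ε s)) +
      ENNReal.ofReal (K ^ L) * SE L η' ε t
  p11 : ∀ᶠ L in atTop, ∀ η η' : ℝ, 0 < η → η < η' → η' ≤ 1 → ∀ ρ : ℝ, 0 < ρ →
    ∀ᶠ ε in 𝓝[>] (0 : ℝ), ∀ t ∈ Icc 0 T, Θ L η ε t ≤ ENNReal.ofReal (K ^ L * cr L + ρ) +
      ENNReal.ofReal C * (∫⁻ s in Icc 0 t, (D L η' ε s + F L η' ε s)) +
      ENNReal.ofReal (K ^ L) * SE L η' ε t + ENNReal.ofReal (1 / 2) * Θ L η' ε t
  p8 : ∀ᶠ L in atTop, ∀ δ ∈ Ioc (0 : ℝ) 1, ∀ η η' : ℝ, 0 < η → η < η' → η' ≤ 1 →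
    ∀ ρ : ℝ, 0 < ρ → ∀ᶠ ε in 𝓝[>] (0 : ℝ), ∀ t ∈ Icc 0 T,
      SE L η ε t ≤ ENNReal.ofReal (K ^ L * cr L + ρ) +
        ENNReal.ofReal (K ^ L * (η' / δ ^ p + δ)) *
          (D L η' ε t + Θ L η' ε t + F L η' ε t) +
        ENNReal.ofReal (K ^ L) * W L δ η' ε t
  p10 : ∀ᶠ L in atTop, ∀ δ ∈ Ioc (0 : ℝ) 1, ∀ η η' : ℝ, 0 < η → η < η' → η' ≤ 1 →
    ∀ ρ : ℝ, 0 < ρ → ∀ᶠ ε in 𝓝[>] (0 : ℝ), ∀ t ∈ Icc 0 T,
      W L δ η ε t ≤ ENNReal.ofReal (K ^ L * cr L + ρ) +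
        ENNReal.ofReal (K ^ L * δ) * (D L η' ε t + Θ L η' ε t + F L η' ε t) +
        ENNReal.ofReal (1 / 2) * W L δ η' ε t

namespace RawSys

variable {T C K : ℝ} {p : ℕ} {cr Mb : ℕ → ℝ} {D Θ F SE : ℕ → ℝ → ℝ → ℝ → ℝ≥0∞}
  {W : ℕ → ℝ → ℝ → ℝ → ℝ → ℝ≥0∞}

/-- The window term, absorbed. -/
theorem win (h : RawSys T C K p cr Mb D Θ F SE W) :
    ∀ᶠ L in atTop, ∀ δ ∈ Ioc (0 : ℝ) 1, ∀ η η' : ℝ, 0 < η → η < η' → η' ≤ 1 →
    ∀ ρ : ℝ, 0 < ρ → ∀ᶠ ε in 𝓝[>] (0 : ℝ), ∀ t ∈ Icc 0 T,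
      W L δ η ε t ≤ ENNReal.ofReal (2 * (K ^ L * cr L) + ρ) +
        ENNReal.ofReal (2 * (K ^ L * δ)) * (D L η' ε t + Θ L η' ε t + F L η' ε t) := by
  filter_upwards [h.p10, h.bdW] with L hp hb δ hδ η η' h0 hη h1 ρ hρ
  have hK : 0 ≤ K ^ L := pow_nonneg (zero_le_one.trans h.K1) _
  have hc : 0 ≤ K ^ L * cr L := mul_nonneg hK (h.cr0 L)
  have hδ0 : 0 ≤ K ^ L * δ := mul_nonneg hK hδ.1.le
  have key := absorb (T := T) (M := Mb L) (θ := fun a ε t => W L δ a ε t)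
    (S := fun a ε t => ENNReal.ofReal (K ^ L * cr L) +
      ENNReal.ofReal (K ^ L * δ) * (D L a ε t + Θ L a ε t + F L a ε t))
    (fun a b ε t ha hab hε ht => by
      have h1 := h.monoD L a b ε t ha hab hε ht.1
      have h2 := h.monoΘ L a b ε t ha hab hε ht.1
      have h3 := h.monoF L a b ε t ha hab hε ht.1
      gcongr)
    (fun a b ha hab hb1 r hr => by
      filter_upwards [hp δ hδ a b ha hab hb1 r hr] with ε hε t ht
      refine (hε t ht).trans (le_of_eq ?_)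
      rw [ENNReal.ofReal_add hc hr.le]
      ring)
    (fun a ha => hb δ hδ a ha) h0 hη h1 hρ
  filter_upwards [key] with ε hε t ht
  refine (hε t ht).trans (le_of_eq ?_)
  rw [ENNReal.ofReal_add (by positivity) hρ.le, ENNReal.ofReal_mul (by norm_num : (0 : ℝ) ≤ 2),
    ENNReal.ofReal_mul (by norm_num : (0 : ℝ) ≤ 2), ENNReal.ofReal_ofNat]
  ring

/-- Second events, without the window term. -/
theorem se (h : RawSys T C K p cr Mb D Θ F SE W) :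
    ∀ᶠ L in atTop, ∀ δ ∈ Ioc (0 : ℝ) 1, ∀ η η' : ℝ, 0 < η → η < η' → η' ≤ 1 →
    ∀ ρ : ℝ, 0 < ρ → ∀ᶠ ε in 𝓝[>] (0 : ℝ), ∀ t ∈ Icc 0 T,
      SE L η ε t ≤ ENNReal.ofReal (3 * ((K ^ 2) ^ L * cr L) + ρ) +
        ENNReal.ofReal (3 * ((K ^ 2) ^ L * (η' / δ ^ p + δ))) *
          (D L η' ε t + Θ L η' ε t + F L η' ε t) := by
  filter_upwards [h.p8, h.win] with L hp hw δ hδ η η' h0 hη h1 ρ hρ
  have hK1 : 1 ≤ K ^ L := one_le_pow₀ h.K1
  have hK : 0 ≤ K ^ L := zero_le_one.trans hK1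
  have hKK : (K ^ 2) ^ L = K ^ L * K ^ L := by rw [← pow_mul, two_mul, pow_add]
  have hc : 0 ≤ cr L := h.cr0 L
  have hδ0 := hδ.1
  obtain ⟨m, hm1, hm2⟩ : ∃ m, η < m ∧ m < η' := ⟨(η + η') / 2, by linarith, by linarith⟩
  have hm0 : 0 < m := h0.trans hm1
  have hη0 : 0 < η' := h0.trans hη
  filter_upwards [hp δ hδ η m h0 hm1 (hm2.le.trans h1) (ρ / 2) (by positivity),
    hw δ hδ m η' hm0 hm2 h1 (ρ / (2 * K ^ L)) (by positivity), self_mem_nhdsWithin]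
    with ε e1 e2 hε t ht
  obtain ⟨X, hX⟩ : ∃ X, X = D L η' ε t + Θ L η' ε t + F L η' ε t := ⟨_, rfl⟩
  have hXm : D L m ε t + Θ L m ε t + F L m ε t ≤ X := by
    rw [hX]
    exact add_le_add (add_le_add (h.monoD L _ _ ε t hm0 hm2.le hε ht.1)
      (h.monoΘ L _ _ ε t hm0 hm2.le hε ht.1)) (h.monoF L _ _ ε t hm0 hm2.le hε ht.1)
  have e2' := e2 t ht
  rw [← hX] at e2' ⊢
  have hq : m / δ ^ p + δ ≤ η' / δ ^ p + δ := by gcongr
  have hq0 : 0 ≤ η' / δ ^ p := by positivity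
  calc SE L η ε t ≤ ENNReal.ofReal (K ^ L * cr L + ρ / 2) +
        ENNReal.ofReal (K ^ L * (m / δ ^ p + δ)) * (D L m ε t + Θ L m ε t + F L m ε t) +
        ENNReal.ofReal (K ^ L) * W L δ m ε t := e1 t ht
    _ ≤ ENNReal.ofReal (K ^ L * cr L + ρ / 2) +
        ENNReal.ofReal (K ^ L * (η' / δ ^ p + δ)) * X + ENNReal.ofReal (K ^ L) *
          (ENNReal.ofReal (2 * (K ^ L * cr L) + ρ / (2 * K ^ L)) +
            ENNReal.ofReal (2 * (K ^ L * δ)) * X) := by gcongr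
    _ = (ENNReal.ofReal (K ^ L * cr L + ρ / 2) +
          ENNReal.ofReal (K ^ L) * ENNReal.ofReal (2 * (K ^ L * cr L) + ρ / (2 * K ^ L))) +
        (ENNReal.ofReal (K ^ L * (η' / δ ^ p + δ)) +
          ENNReal.ofReal (K ^ L) * ENNReal.ofReal (2 * (K ^ L * δ))) * X := by ring
    _ ≤ ENNReal.ofReal (3 * ((K ^ 2) ^ L * cr L) + ρ) +
        ENNReal.ofReal (3 * ((K ^ 2) ^ L * (η' / δ ^ p + δ))) * X := by
      have hg1 : K ^ L * cr L ≤ K ^ L * K ^ L * cr L := by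
        have := mul_le_mul_of_nonneg_right hK1 (mul_nonneg hK hc)
        nlinarith
      gcongr
      · rw [← ENNReal.ofReal_mul hK, ← ENNReal.ofReal_add (by positivity) (by positivity)]
        refine ENNReal.ofReal_le_ofReal ?_
        have h7 : K ^ L * (ρ / (2 * K ^ L)) = ρ / 2 := by
          field_simp
        rw [hKK]
        nlinarith
      · rw [← ENNReal.ofReal_mul hK, ← ENNReal.ofReal_add (by positivity) (by positivity)]
        refine ENNReal.ofReal_le_ofReal ?_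
        rw [hKK]
        have h8 : K ^ L * (η' / δ ^ p + δ) ≤ K ^ L * K ^ L * (η' / δ ^ p + δ) := by
          have h9 : 0 ≤ K ^ L * (η' / δ ^ p + δ) := by positivity
          nlinarith [mul_le_mul_of_nonneg_right hK1 h9]
        have h10 : 0 ≤ K ^ L * K ^ L * (η' / δ ^ p) := by positivity
        nlinarith

/-- The touch probability, absorbed. -/
theorem theta (h : RawSys T C K p cr Mb D Θ F SE W) :
    ∀ᶠ L in atTop, ∀ η η' : ℝ, 0 < η → η < η' → η' ≤ 1 →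
    ∀ ρ : ℝ, 0 < ρ → ∀ᶠ ε in 𝓝[>] (0 : ℝ), ∀ t ∈ Icc 0 T,
      Θ L η ε t ≤ ENNReal.ofReal (2 * (K ^ L * cr L) + ρ) +
        ENNReal.ofReal (2 * C) * (∫⁻ s in Icc 0 t, (D L η' ε s + F L η' ε s)) +
        ENNReal.ofReal (2 * K ^ L) * SE L η' ε t := by
  filter_upwards [h.p11, h.bd] with L hp hb η η' h0 hη h1 ρ hρ
  have hK : 0 ≤ K ^ L := pow_nonneg (zero_le_one.trans h.K1) _
  have hc : 0 ≤ K ^ L * cr L := mul_nonneg hK (h.cr0 L)
  have hC := h.C0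
  have key := absorb (T := T) (M := Mb L) (θ := fun a ε t => Θ L a ε t)
    (S := fun a ε t => ENNReal.ofReal (K ^ L * cr L) +
      ENNReal.ofReal C * (∫⁻ s in Icc 0 t, (D L a ε s + F L a ε s)) +
      ENNReal.ofReal (K ^ L) * SE L a ε t)
    (fun a b ε t ha hab hε ht => by
      have h1 : ∫⁻ s in Icc 0 t, (D L a ε s + F L a ε s) ≤
          ∫⁻ s in Icc 0 t, (D L b ε s + F L b ε s) :=
        setLIntegral_mono' measurableSet_Icc fun s hs => add_le_add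
          (h.monoD L a b ε s ha hab hε hs.1) (h.monoF L a b ε s ha hab hε hs.1)
      have h2 := h.monoS L a b ε t ha hab hε ht.1
      gcongr)
    (fun a b ha hab hb1 r hr => by
      filter_upwards [hp a b ha hab hb1 r hr] with ε hε t ht
      refine (hε t ht).trans (le_of_eq ?_)
      rw [ENNReal.ofReal_add hc hr.le]
      ring)
    (fun a ha => by
      filter_upwards [hb a ha] with ε hε t ht
      exact (hε t ht).2.1) h0 hη h1 hρ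
  filter_upwards [key] with ε hε t ht
  refine (hε t ht).trans (le_of_eq ?_)
  rw [ENNReal.ofReal_add (by positivity) hρ.le, ENNReal.ofReal_mul (by norm_num : (0 : ℝ) ≤ 2),
    ENNReal.ofReal_mul (by norm_num : (0 : ℝ) ≤ 2), ENNReal.ofReal_mul (by norm_num : (0 : ℝ) ≤ 2),
    ENNReal.ofReal_ofNat]
  ring

/-- Arithmetic of the constants. -/
theorem arith {k c q a ρ x : ℝ} {Z : ℝ≥0∞} (hk : 1 ≤ k) (hc : 0 ≤ c) (hq : 0 ≤ q)
    (ha : 0 ≤ a) (ha2 : a ≤ 2) (hρ : 0 < ρ) (hx : 8 * k ^ 3 ≤ x) :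
    ENNReal.ofReal (a * (k * c) + ρ / 2) + ENNReal.ofReal (a * k) *
      (ENNReal.ofReal (3 * (k ^ 2 * c) + ρ / (4 * k)) + ENNReal.ofReal (3 * (k ^ 2 * q)) * Z) ≤
    ENNReal.ofReal (x * c + ρ) + ENNReal.ofReal (x * q) * Z := by
  have hk0 : 0 < k := zero_lt_one.trans_le hk
  have hk3 : k ≤ k ^ 3 := by nlinarith [sq_nonneg k, pow_pos hk0 2, one_le_pow₀ hk (n := 2)]
  calc _ = (ENNReal.ofReal (a * (k * c) + ρ / 2) + ENNReal.ofReal (a * k) *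
          ENNReal.ofReal (3 * (k ^ 2 * c) + ρ / (4 * k))) +
        (ENNReal.ofReal (a * k) * ENNReal.ofReal (3 * (k ^ 2 * q))) * Z := by ring
    _ ≤ _ := by
      gcongr
      · rw [← ENNReal.ofReal_mul (by positivity), ← ENNReal.ofReal_add (by positivity)
          (by positivity)]
        refine ENNReal.ofReal_le_ofReal ?_
        have h7 : a * k * (ρ / (4 * k)) = a * (ρ / 4) := by field_simp
        have h8 : a * (ρ / 4) ≤ 2 * (ρ / 4) := by gcongr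
        have h9 : a * (k * c) ≤ 2 * (k ^ 3 * c) := by gcongr
        have h10 : a * k * (3 * (k ^ 2 * c)) ≤ 2 * k * (3 * (k ^ 2 * c)) := by gcongr
        have h11 : 8 * k ^ 3 * c ≤ x * c := by gcongr
        nlinarith
      · rw [← ENNReal.ofReal_mul (by positivity)]
        refine ENNReal.ofReal_le_ofReal ?_
        have h10 : a * k * (3 * (k ^ 2 * q)) ≤ 2 * k * (3 * (k ^ 2 * q)) := by gcongr
        have h11 : 8 * k ^ 3 * q ≤ x * q := by gcongr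
        have h12 : 0 ≤ k ^ 3 * q := by positivity
        nlinarith

/-- **The hypotheses of `feedback_limit`.** -/
theorem hsys (h : RawSys T C K p cr Mb D Θ F SE W) :
    ∀ᶠ L in atTop, ∀ δ ∈ Ioc (0 : ℝ) 1, ∀ η η' : ℝ, 0 < η → η < η' → η' ≤ 1 →
      ∀ ρ : ℝ, 0 < ρ → ∀ᶠ ε in 𝓝[>] (0 : ℝ), ∀ t ∈ Icc 0 T,
      Θ L η ε t ≤ ENNReal.ofReal ((8 * K ^ 3) ^ L * cr L + ρ) +
        ENNReal.ofReal (2 * C) * (∫⁻ s in Icc 0 t, (D L η' ε s + F L η' ε s)) +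
        ENNReal.ofReal ((8 * K ^ 3) ^ L * (η' / δ ^ p + δ)) *
          (D L η' ε t + Θ L η' ε t + F L η' ε t) ∧
      F L η ε t ≤ ENNReal.ofReal ((8 * K ^ 3) ^ L * cr L + ρ) +
        ENNReal.ofReal (2 * C) * Θ L η' ε t +
        ENNReal.ofReal ((8 * K ^ 3) ^ L * (η' / δ ^ p + δ)) *
          (D L η' ε t + Θ L η' ε t + F L η' ε t) ∧
      D L η ε t ≤ ENNReal.ofReal ((8 * K ^ 3) ^ L * cr L + ρ) +
        ENNReal.ofReal (2 * C) * (∫⁻ s in Icc 0 t, (D L η' ε s + Θ L η' ε s)) +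
        ENNReal.ofReal ((8 * K ^ 3) ^ L * (η' / δ ^ p + δ)) *
          (D L η' ε t + Θ L η' ε t + F L η' ε t) := by
  filter_upwards [h.theta, h.p3, h.p9, h.se, eventually_ge_atTop 1] with L hth h3 h9 hse hL
    δ hδ η η' h0 hη h1 ρ hρ
  obtain ⟨k, hk⟩ : ∃ k, k = K ^ L := ⟨_, rfl⟩
  have hk1 : 1 ≤ k := hk ▸ one_le_pow₀ h.K1
  have hk0 : 0 < k := zero_lt_one.trans_le hk1
  have hc : 0 ≤ cr L := h.cr0 L
  have hC : 0 ≤ C := h.C0
  have hδ0 := hδ.1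
  have hη0 : 0 < η' := h0.trans hη
  have hkk : (K ^ 2) ^ L = k ^ 2 := by rw [hk, ← pow_mul, ← pow_mul, mul_comm]
  obtain ⟨x, hx⟩ : ∃ x, x = (8 * K ^ 3) ^ L := ⟨_, rfl⟩
  have hx8 : 8 * k ^ 3 ≤ x := by
    rw [hx, mul_pow, ← pow_mul, mul_comm 3 L, pow_mul, ← hk]
    gcongr
    calc (8 : ℝ) = 8 ^ 1 := by norm_num
      _ ≤ 8 ^ L := pow_le_pow_right₀ (by norm_num) hL
  obtain ⟨m, hm1, hm2⟩ : ∃ m, η < m ∧ m < η' := ⟨(η + η') / 2, by linarith, by linarith⟩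
  have hm0 : 0 < m := h0.trans hm1
  have hm3 := hm2.le.trans h1
  obtain ⟨q, hq⟩ : ∃ q, q = η' / δ ^ p + δ := ⟨_, rfl⟩
  have hq0 : 0 ≤ q := by rw [hq]; positivity
  filter_upwards [hth η m h0 hm1 hm3 (ρ / 2) (by positivity),
    h3 η m h0 hm1 hm3 (ρ / 2) (by positivity), h9 η m h0 hm1 hm3 (ρ / 2) (by positivity),
    hse δ hδ m η' hm0 hm2 h1 (ρ / (4 * k)) (by positivity), self_mem_nhdsWithin]
    with ε e1 e3 e9 e2 hε t ht
  have f1 := e1 t ht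
  have f3 := e3 t ht
  have f9 := e9 t ht
  have f2 := e2 t ht
  rw [← hx]
  rw [← hk] at f1 f3 f9
  rw [hkk] at f2
  rw [← hq] at f2 ⊢
  obtain ⟨Z, hZ⟩ : ∃ Z, Z = D L η' ε t + Θ L η' ε t + F L η' ε t := ⟨_, rfl⟩
  rw [← hZ] at f2 ⊢
  have hD := fun s hs => h.monoD L m η' ε s hm0 hm2.le hε hs
  have hΘ := fun s hs => h.monoΘ L m η' ε s hm0 hm2.le hε hs
  have hF := fun s hs => h.monoF L m η' ε s hm0 hm2.le hε hs
  have i1 : ∫⁻ s in Icc 0 t, (D L m ε s + F L m ε s) ≤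
      ∫⁻ s in Icc 0 t, (D L η' ε s + F L η' ε s) :=
    setLIntegral_mono' measurableSet_Icc fun s hs => add_le_add (hD s hs.1) (hF s hs.1)
  have i2 : ∫⁻ s in Icc 0 t, (D L m ε s + Θ L m ε s) ≤
      ∫⁻ s in Icc 0 t, (D L η' ε s + Θ L η' ε s) :=
    setLIntegral_mono' measurableSet_Icc fun s hs => add_le_add (hD s hs.1) (hΘ s hs.1)
  have hC2 : ENNReal.ofReal C ≤ ENNReal.ofReal (2 * C) := ENNReal.ofReal_le_ofReal (by linarith)
  have a1 := arith (Z := Z) hk1 hc hq0 (by norm_num : (0 : ℝ) ≤ 1) (by norm_num) hρ hx8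
  have a2 := arith (Z := Z) hk1 hc hq0 (by norm_num : (0 : ℝ) ≤ 2) le_rfl hρ hx8
  rw [one_mul, one_mul] at a1
  refine ⟨?_, ?_, ?_⟩
  · calc Θ L η ε t ≤ ENNReal.ofReal (2 * (k * cr L) + ρ / 2) +
          ENNReal.ofReal (2 * C) * (∫⁻ s in Icc 0 t, (D L m ε s + F L m ε s)) +
          ENNReal.ofReal (2 * k) * SE L m ε t := f1
      _ ≤ ENNReal.ofReal (2 * (k * cr L) + ρ / 2) +
          ENNReal.ofReal (2 * C) * (∫⁻ s in Icc 0 t, (D L η' ε s + F L η' ε s)) +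
          ENNReal.ofReal (2 * k) * (ENNReal.ofReal (3 * (k ^ 2 * cr L) + ρ / (4 * k)) +
            ENNReal.ofReal (3 * (k ^ 2 * q)) * Z) := by gcongr
      _ = (ENNReal.ofReal (2 * (k * cr L) + ρ / 2) +
          ENNReal.ofReal (2 * k) * (ENNReal.ofReal (3 * (k ^ 2 * cr L) + ρ / (4 * k)) +
            ENNReal.ofReal (3 * (k ^ 2 * q)) * Z)) +
          ENNReal.ofReal (2 * C) * (∫⁻ s in Icc 0 t, (D L η' ε s + F L η' ε s)) := by ring
      _ ≤ (ENNReal.ofReal (x * cr L + ρ) + ENNReal.ofReal (x * q) * Z) +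
          ENNReal.ofReal (2 * C) * (∫⁻ s in Icc 0 t, (D L η' ε s + F L η' ε s)) :=
        add_le_add a2 le_rfl
      _ = _ := by ring
  · calc F L η ε t ≤ ENNReal.ofReal (k * cr L + ρ / 2) +
          ENNReal.ofReal C * Θ L m ε t + ENNReal.ofReal k * SE L m ε t := f3
      _ ≤ ENNReal.ofReal (k * cr L + ρ / 2) +
          ENNReal.ofReal (2 * C) * Θ L η' ε t +
          ENNReal.ofReal k * (ENNReal.ofReal (3 * (k ^ 2 * cr L) + ρ / (4 * k)) +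
            ENNReal.ofReal (3 * (k ^ 2 * q)) * Z) := by
        have := hΘ t ht.1
        gcongr
      _ = (ENNReal.ofReal (k * cr L + ρ / 2) +
          ENNReal.ofReal k * (ENNReal.ofReal (3 * (k ^ 2 * cr L) + ρ / (4 * k)) +
            ENNReal.ofReal (3 * (k ^ 2 * q)) * Z)) +
          ENNReal.ofReal (2 * C) * Θ L η' ε t := by ring
      _ ≤ (ENNReal.ofReal (x * cr L + ρ) + ENNReal.ofReal (x * q) * Z) +
          ENNReal.ofReal (2 * C) * Θ L η' ε t := add_le_add a1 le_rfl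
      _ = _ := by ring
  · calc D L η ε t ≤ ENNReal.ofReal (k * cr L + ρ / 2) +
          ENNReal.ofReal C * (∫⁻ s in Icc 0 t, (D L m ε s + Θ L m ε s)) +
          ENNReal.ofReal k * SE L m ε t := f9
      _ ≤ ENNReal.ofReal (k * cr L + ρ / 2) +
          ENNReal.ofReal (2 * C) * (∫⁻ s in Icc 0 t, (D L η' ε s + Θ L η' ε s)) +
          ENNReal.ofReal k * (ENNReal.ofReal (3 * (k ^ 2 * cr L) + ρ / (4 * k)) +
            ENNReal.ofReal (3 * (k ^ 2 * q)) * Z) := by gcongr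
      _ = (ENNReal.ofReal (k * cr L + ρ / 2) +
          ENNReal.ofReal k * (ENNReal.ofReal (3 * (k ^ 2 * cr L) + ρ / (4 * k)) +
            ENNReal.ofReal (3 * (k ^ 2 * q)) * Z)) +
          ENNReal.ofReal (2 * C) * (∫⁻ s in Icc 0 t, (D L η' ε s + Θ L η' ε s)) := by ring
      _ ≤ (ENNReal.ofReal (x * cr L + ρ) + ENNReal.ofReal (x * q) * Z) +
          ENNReal.ofReal (2 * C) * (∫⁻ s in Icc 0 t, (D L η' ε s + Θ L η' ε s)) :=
        add_le_add a1 le_rfl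
      _ = _ := by ring

/-- **The natural inequalities imply the limit.** -/
theorem limit (h : RawSys T C K p cr Mb D Θ F SE W) :
    ∀ᶠ L in atTop, ∀ ρ : ℝ, 0 < ρ → ∀ᶠ ε in 𝓝[>] (0 : ℝ), ∀ t ∈ Icc 0 T,
      D L (KE.thr (8 * K ^ 3) p L) ε t + Θ L (KE.thr (8 * K ^ 3) p L) ε t ≤
        ENNReal.ofReal (6 * Real.exp (64 * (2 * C + 1) ^ 2 * T) *
          ((8 * K ^ 3) ^ L * cr L) + ρ) := by
  have hK3 : 1 ≤ K ^ 3 := one_le_pow₀ h.K1
  exact KE.feedback_limit (mul_nonneg (by norm_num) h.C0) (by linarith) p h.cr0 h.bd h.hsys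

/-- **The natural inequalities imply the limit of the three unknowns.** -/
theorem limit_all (h : RawSys T C K p cr Mb D Θ F SE W) :
    ∀ᶠ L in atTop, ∀ ρ : ℝ, 0 < ρ → ∀ᶠ ε in 𝓝[>] (0 : ℝ), ∀ t ∈ Icc 0 T,
      D L (KE.thr (8 * K ^ 3) p L) ε t + Θ L (KE.thr (8 * K ^ 3) p L) ε t +
        F L (KE.thr (8 * K ^ 3) p L) ε t ≤
        ENNReal.ofReal (24 * (2 * C + 1) * Real.exp (64 * (2 * C + 1) ^ 2 * T) *
          ((8 * K ^ 3) ^ L * cr L) + ρ) := by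
  have hK3 : 1 ≤ K ^ 3 := one_le_pow₀ h.K1
  exact KE.feedback_limit_all (mul_nonneg (by norm_num) h.C0) (by linarith) p h.cr0 h.bd h.hsys

end RawSys

end Vale.Agent.P119.AU
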