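import Vale.Agent.P119.END.Target
import Vale.Agent.P119.Real.Energy
import Vale.Agent.P119.KE.Datum

/-!
# P119: three side results about the particle system (`helper376`)

* `newton_global`: Newton's equations are uniquely globally solvable from the configurations with
  distances `> ε`;
* `newton_energy`: the kinetic energy is bounded by its initial value plus `B N`;
* `exists_marginals`: the rescaled factorial marginals at all times exist, are nonnegative and have
  mass at most one.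
-/

open MeasureTheory Set Filter Topology
open scoped ENNReal

namespace Vale.Agent.P119.AU

open GC

/-- Global solvability. -/
theorem newton_global {Φ : E3 → ℝ} (h : Stmt.IsPotential Φ) {ε : ℝ} (hε : 0 < ε) {N : ℕ}
    {Z : Fin N → E3 × E3} (hZ : Z ∈ Stmt.excl ε N) :
    ∃! z, Stmt.IsNewton (gradient Φ) ε Z z :=
  Bridge.existsUnique (Bridge.isPotential_of h) hε hZ

/-- The energy bound. -/
theorem newton_energy {Φ : E3 → ℝ} (h : Stmt.IsPotential Φ) (hs : Stmt.IsStable Φ) :
    ∃ B : ℝ, 0 ≤ B ∧ ∀ ε : ℝ, 0 < ε → ∀ (N : ℕ) (Z : Fin N → E3 × E3), Z ∈ Stmt.excl ε N →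
      ∀ z : ℝ → Fin N → E3 × E3, Stmt.IsNewton (gradient Φ) ε Z z → ∀ t : ℝ,
        ∑ i, ‖(z t i).2‖ ^ 2 ≤ ∑ i, ‖(Z i).2‖ ^ 2 + B * N := by
  classical
  obtain ⟨B, hB0, hB⟩ := hs
  have hΦ := Bridge.isPotential_of h
  refine ⟨2 * B, by positivity, fun ε hε N Z hZ z hz t => ?_⟩
  have hZ' : Z ∈ excl ε N := hZ
  have hinj : Function.Injective Z := by
    intro i j hij
    by_contra hne
    have h1 := hZ' i j hne
    rw [hij, sub_self, norm_zero] at h1
    linarith
  have hw : RW.Excl ε (Finset.univ.image Z) := by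
    intro p hp q hq hpq
    obtain ⟨i, -, rfl⟩ := Finset.mem_image.1 hp
    obtain ⟨j, -, rfl⟩ := Finset.mem_image.1 hq
    exact hZ' i j fun e => hpq (by rw [e])
  have h1 := RW.R_energy hΦ (B := B) ⟨hB0, hB⟩ hε hw t
  rw [Finset.sum_image fun i _ j _ e => hinj e, Finset.sum_image fun i _ j _ e => hinj e,
    Finset.card_image_of_injective _ hinj, Finset.card_univ, Fintype.card_fin] at h1
  have h2 : ∀ i, RW.R Φ ε (Finset.univ.image Z) t (Z i) = z t i := by
    intro i
    rw [RW.R_image hΦ hε hZ t i, ← Bridge.epsilon_eq_flow hΦ hε t hZ]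
    have h3 : Classical.epsilon (Stmt.IsNewton (gradient Φ) ε Z) = z :=
      (Bridge.existsUnique hΦ hε hZ).unique (Classical.epsilon_spec ⟨z, hz⟩) hz
    rw [h3]
  simp only [h2] at h1
  exact h1

/-- A marginal is nonnegative and has mass at most one. -/
theorem marginal_bounds {Φ : E3 → ℝ} {f₀ : Ph → ℝ} {κ ε t : ℝ} {s : ℕ} (h : GoodDatum f₀ κ)
    (hε : 0 < ε) {F : (Fin s → Ph) → ℝ} (hF : IsMarginal Φ f₀ ε t s F) :
    (∀ᵐ z, 0 ≤ F z) ∧ ∫ z, F z ≤ 1 := by
  have hmu : 0 < mu ε ^ s := pow_pos (mu_pos hε) s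
  constructor
  · -- nonnegativity
    obtain ⟨H, hHm, hHe⟩ := hF.1.aestronglyMeasurable
    have hHm' : Measurable H := hHm.measurable
    set a : (Fin s → Ph) → ℝ := fun z => if H z < 0 then 1 else 0 with ha
    have ham : Measurable a :=
      Measurable.ite (measurableSet_lt hHm' measurable_const) measurable_const measurable_const
    have h0 : ∀ z, 0 ≤ a z := fun z => by simp only [ha]; split_ifs <;> norm_num
    have h1 : ∀ z, a z ≤ 1 := fun z => by simp only [ha]; split_ifs <;> norm_num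
    have h2 := hF.2 a ham ⟨1, fun z => by rw [abs_of_nonneg (h0 z)]; exact h1 z⟩
    have h3 : 0 ≤ ∫ z, a z * F z := by
      rw [h2]
      have : 0 ≤ partitionFn f₀ ε := by
        unfold partitionFn
        exact tsum_nonneg fun N => mul_nonneg (div_nonneg (pow_nonneg (mu_pos hε).le _)
          (Nat.cast_nonneg _)) (integral_nonneg fun Z => Set.indicator_nonneg
            (fun Z _ => Finset.prod_nonneg fun i _ => h.nonneg _) Z)
      refine mul_nonneg (inv_nonneg.2 hmu.le) (mul_nonneg (inv_nonneg.2 this)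
        (tsum_nonneg fun N => mul_nonneg (div_nonneg (pow_nonneg (mu_pos hε).le _)
          (Nat.cast_nonneg _)) (integral_nonneg fun Z => mul_nonneg (Set.indicator_nonneg
            (fun Z _ => Finset.prod_nonneg fun i _ => h.nonneg _) Z)
            (Finset.sum_nonneg fun σ _ => h0 _))))
    have h4 : ∀ᵐ z, a z * F z ≤ 0 := by
      filter_upwards [hHe] with z hz
      simp only [ha]
      split_ifs with hneg
      · rw [one_mul, hz]; exact hneg.le
      · rw [zero_mul]
    have hint : Integrable fun z => a z * F z :=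
      hF.1.bdd_mul (c := 1) ham.aestronglyMeasurable (Eventually.of_forall fun z => by
        rw [Real.norm_eq_abs, abs_of_nonneg (h0 z)]
        exact h1 z)
    have h5 : ∫ z, -(a z * F z) = 0 := by
      refine le_antisymm ?_ (integral_nonneg_of_ae (h4.mono fun z hz => by simpa using hz))
      rw [integral_neg]
      linarith
    have h6 := (integral_eq_zero_iff_of_nonneg_ae (h4.mono fun z hz => by simpa using hz)
      hint.neg).1 h5
    filter_upwards [hHe, h6] with z hz hz6
    rw [hz]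
    by_contra hneg
    rw [not_le] at hneg
    have h7 : a z = 1 := if_pos hneg
    have h8 : -(a z * F z) = 0 := hz6
    rw [h7, hz, one_mul] at h8
    linarith
  · have h2 := hF.2 (fun _ => 1) measurable_const ⟨1, fun z => by simp⟩
    simp only [one_mul] at h2
    rw [h2]
    exact expect_descFactorial_le h hε s

/-- The marginals exist at all times. -/
theorem exists_marginals {Φ : E3 → ℝ} {γ : ℝ} {f₀ : Ph → ℝ} (h : Stmt.IsPotential Φ)
    (hγ : 0 < γ) (hd : Stmt.IsDatum Bridge.lat γ f₀) (s : ℕ) {ε t : ℝ} (hε : 0 < ε)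
    (ht : 0 ≤ t) :
    ∃ F, Stmt.IsMarginal (ε ^ 2)⁻¹ (Stmt.weight f₀ ε (ε ^ 2)⁻¹)
      (fun _ Z => Classical.epsilon (Stmt.IsNewton (gradient Φ) ε Z) t) s F ∧
      (∀ᵐ z, 0 ≤ F z) ∧ ∫ z, F z ≤ 1 := by
  have hΦ := Bridge.isPotential_of h
  have hβ : 0 < γ / 2 := by positivity
  have hd' := Bridge.isDatum_of hd
  obtain ⟨C, hC0, hC⟩ : ∃ C : ℝ, 0 ≤ C ∧
      ∀ x v : E3, Real.exp (2 * (γ / 2) * ‖v‖ ^ 2) * f₀ (x, v) ≤ C := by
    refine ⟨(gnorm (2 * (γ / 2)) f₀).toReal, ENNReal.toReal_nonneg, fun x v => ?_⟩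
    obtain ⟨k, hk⟩ := KE.exists_latPt x
    have h1 : ENNReal.ofReal (Real.exp (2 * (γ / 2) * ‖v‖ ^ 2) * ‖f₀ (x, v)‖) ≤
        gnorm (2 * (γ / 2)) f₀ :=
      (le_iSup₂_of_le (f := fun (z : Ph) (_ : ‖z.1 - latPt k‖ ≤ 1) =>
        ENNReal.ofReal (Real.exp (2 * (γ / 2) * ‖z.2‖ ^ 2) * ‖f₀ z‖)) (x, v) hk le_rfl).trans
        (ENNReal.le_tsum k)
    have h2 := (ENNReal.ofReal_le_iff_le_toReal hd'.norm_lt.ne).1 h1
    refine le_trans ?_ h2
    gcongr
    exact Real.le_norm_self _
  have hgood : GoodDatum f₀ (kap (γ / 2) C) := by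
    have := goodDatum_free hβ hd' hC0 hC 0
    have h0' : free f₀ 0 = f₀ := by
      funext z
      simp [free]
    rwa [h0'] at this
  obtain ⟨F, hF⟩ := exists_marginal hgood hε (goodFlow_of hΦ hε ht) s
  exact ⟨F, Bridge.isMarginal_of hΦ hε hF, marginal_bounds hgood hε hF⟩

end Vale.Agent.P119.AU
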