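import Vale.Agent.P119.AU.Raw
import Vale.Agent.P119.END.Exposed
import Vale.Agent.P119.RM.Def

/-!
# P119, AUDIT/GLUE: the inequalities of the feedback block imply `PathENN` (`helper376`)

* `wS_eq_fworld`: the two forms of the ordinary world agree;
* `dD`, `dF`: the densities `PB.DD`, `PB.FF` as functions of all real `ε`;
* `gN`: the stopped number `nW` at `hz`, `lintegral_gN`: its expectation is `μ (dD + dF)`;
* `expo_or_gN`: the number of exposed particles is at most `gN`, or `gN ≥ η μ`;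
* `pathENN_of_raw`: the inequalities `RawSys` for `dD`, `dF` (and any `Θ`, `SE`, `W`) imply `PathENN`.
-/

open MeasureTheory Filter Topology Set
open scoped ENNReal NNReal

noncomputable section

namespace Vale.Agent.P119.AU

open M RB

theorem wS_eq_fworld (w : Finset Ph) : wS w = fworld w := rfl

/-- The expected exposed energy, for all real `ε`. -/
def dD {Φ : E3 → ℝ} (hΦ : IsPotential Φ) (f₀ : Ph → ℝ) (L : ℕ) (η ε t : ℝ) : ℝ≥0∞ := by
  classical
  exact if hε : 0 < ε then PB.DD L hΦ hε f₀ η t else 0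

/-- The expected number of felt trees, for all real `ε`. -/
def dF {Φ : E3 → ℝ} (hΦ : IsPotential Φ) (f₀ : Ph → ℝ) (L : ℕ) (η ε t : ℝ) : ℝ≥0∞ := by
  classical
  exact if hε : 0 < ε then PB.FF L hΦ hε f₀ η t else 0

/-- The stopped number of exposed particles and felt trees. -/
def gN {Φ : E3 → ℝ} (hΦ : IsPotential Φ) (η : ℕ → ℝ) (L : ℕ) (ε t : ℝ) (c : GC.Conf Ph) :
    ℝ≥0∞ := by
  classical
  exact if hε : 0 < ε then PB.nW L hΦ hε (wS (GC.pts c)) (PB.hz L hΦ hε (η L) t (wS (GC.pts c)))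
    else 0

variable {Φ : E3 → ℝ} {hΦ : IsPotential Φ} {f₀ : Ph → ℝ} {L : ℕ} {η ε t : ℝ}

theorem dD_pos (hε : 0 < ε) : dD hΦ f₀ L η ε t = PB.DD L hΦ hε f₀ η t := by
  unfold dD
  rw [dif_pos hε]

theorem dF_pos (hε : 0 < ε) : dF hΦ f₀ L η ε t = PB.FF L hΦ hε f₀ η t := by
  unfold dF
  rw [dif_pos hε]

theorem gN_pos {η : ℕ → ℝ} (hε : 0 < ε) (c : GC.Conf Ph) : gN hΦ η L ε t c =
    PB.nW L hΦ hε (wS (GC.pts c)) (PB.hz L hΦ hε (η L) t (wS (GC.pts c))) := by
  unfold gN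
  rw [dif_pos hε]

/-- The expectation of the stopped number. -/
theorem lintegral_gN {η : ℕ → ℝ} (hε : 0 < ε) :
    (ENNReal.ofReal (mu ε))⁻¹ * ∫⁻ c, gN hΦ η L ε t c ∂(GC.PP f₀ ε) =
      dD hΦ f₀ L (η L) ε t + dF hΦ f₀ L (η L) ε t := by
  rw [dD_pos hε, dF_pos hε]
  unfold PB.DD PB.FF
  rw [← mul_add, ← lintegral_add_left]
  · unfold FL.muE
    congr 1
    exact lintegral_congr fun c => gN_pos hε c
  · exact RM.measurable_eW_hz RM.rs_conf measurable_const measurable_const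

/-- The exposed particles are at most the stopped number, or the threshold is reached. -/
theorem expo_or_gN {η : ℕ → ℝ} (hη : 0 < η L) (hε : 0 < ε) (ht : 0 ≤ t) (c : GC.Conf Ph) :
    ((END.expo hΦ hε L t c).card : ℝ≥0∞) ≤ gN hΦ η L ε t c ∨
      ENNReal.ofReal (η L * mu ε) ≤ gN hΦ η L ε t c := by
  classical
  rw [gN_pos hε]
  by_cases h : ENNReal.ofReal (η L * mu ε) ≤ PB.nW L hΦ hε (wS (GC.pts c)) t
  · exact Or.inr (PB.reached_of_le hη ht h)
  · left
    have h1 : PB.hz L hΦ hε (η L) t (wS (GC.pts c)) = t := by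
      rcases PB.hz_reached (L := L) (hΦ := hΦ) (hε := hε) (W := wS (GC.pts c)) hη ht with h1 | h1
      · exact h1
      · exact absurd (h1.trans (PB.nW_mono (PB.hz_le hη ht))) h
    rw [h1]
    have h2 : ((END.expo hΦ hε L t c).map srcEmb) ⊆ PB.ex L hΦ hε (wS (GC.pts c)) t := by
      intro a ha
      obtain ⟨z, hz, rfl⟩ := Finset.mem_map.1 ha
      rw [PB.mem_ex]
      exact (END.mem_expo.1 hz).2
    have h3 : (END.expo hΦ hε L t c).card ≤ (PB.ex L hΦ hε (wS (GC.pts c)) t).card := by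
      rw [← Finset.card_map srcEmb]
      exact Finset.card_le_card h2
    have h4 : ((PB.ex L hΦ hε (wS (GC.pts c)) t).card : ℝ≥0∞) ≤
        PB.eW L hΦ hε (wS (GC.pts c)) t := by
      unfold PB.eW
      rw [Finset.cast_card]
      refine Finset.sum_le_sum fun a _ => ?_
      rw [← ENNReal.ofReal_one]
      refine ENNReal.ofReal_le_ofReal ?_
      have := EN.wt_nonneg (Φ := Φ) (ε := ε) (L := L) (wS (GC.pts c))
        (PB.ex L hΦ hε (wS (GC.pts c))) a
      linarith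
    calc ((END.expo hΦ hε L t c).card : ℝ≥0∞) ≤
          ((PB.ex L hΦ hε (wS (GC.pts c)) t).card : ℝ≥0∞) := by exact_mod_cast h3
      _ ≤ PB.eW L hΦ hε (wS (GC.pts c)) t := h4
      _ ≤ PB.nW L hΦ hε (wS (GC.pts c)) t := by
        unfold PB.nW
        exact le_add_right le_rfl

/-- **The inequalities of the feedback block imply `PathENN`.** -/
theorem pathENN_of_raw {κ T C K : ℝ} {p : ℕ} {cr Mb : ℕ → ℝ}
    {Θ SE : ℕ → ℝ → ℝ → ℝ → ℝ≥0∞} {W : ℕ → ℝ → ℝ → ℝ → ℝ → ℝ≥0∞}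
    (hΦ : IsPotential Φ) (h : GoodDatum f₀ κ) (hcr : KE.SuperExp cr)
    (hR : RawSys T C K p cr Mb (dD hΦ f₀) Θ (dF hΦ f₀) SE W) :
    END.PathENN Φ f₀ T (END.AL Φ) (END.MY Φ) := by
  have hK3 : 1 ≤ K ^ 3 := one_le_pow₀ hR.K1
  have hK8 : 1 ≤ 8 * K ^ 3 := by linarith
  have hC := hR.C0
  refine END.pathENN_of_expo (G := gN hΦ (KE.thr (8 * K ^ 3) p)) (K := 8 * K ^ 3)
    (C₀ := 24 * (2 * C + 1) * Real.exp (64 * (2 * C + 1) ^ 2 * T)) hΦ h hK8 p hR.cr0 hcr
    (by positivity) ?_ ?_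
  · filter_upwards [hR.limit_all] with L hL ρ hρ
    filter_upwards [hL ρ hρ, self_mem_nhdsWithin] with ε h1 hε t ht
    rw [lintegral_gN hε]
    refine le_trans ?_ (h1 t ht)
    rw [add_right_comm]
    exact le_add_right le_rfl
  · filter_upwards with L ε hε _ t ht c _
    exact expo_or_gN (KE.thr_pos hK8 p L) hε ht.1 c

end Vale.Agent.P119.AU
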