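import Vale.Agent.P119.AU.WireRel

/-!
# P119: the kinetic inputs of the master assembly (`helper376`)

They are `alive_kin`, `i1_kin`, `nd_kin`, `r_kin` of `AU/WireRel` (`helper295`).
-/
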