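import Vale.Agent.P119.AU.WireMl
import Vale.Agent.P119.AU.Master
import Vale.Agent.P119.KT.RelZero

/-!
# P119: the kinetic inputs of the master assembly are proved (`helper295`)

* `relZ_kin`, `alive_kin`, `i1_kin`, `nd_kin`, `r_kin`: the fields `alive`, `i1`, `nd`, `r` of
  `AU.Inputs`, without hypothesis;
* `Rest K`: the remaining inputs (`e1`, `e2`, `path`); `Rest.inputs`;
* **`questionOne_of_rest`**: Question 1 from the remaining inputs.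
-/

open MeasureTheory Filter Topology Set ProbabilityTheory
open scoped ENNReal NNReal

noncomputable section

namespace Vale.Agent.P119.AU

open M RB PB GC END

variable {Φ : E3 → ℝ} {hΦ : IsPotential Φ} {f₀ : Ph → ℝ}
  {m₀ : Measurable fun p : E3 × E3 => K1.f0hat f₀ p.1 p.2} {T κ β' : ℝ} {f : ℝ → Ph → ℝ}

theorem relZ_kin (K : KE.KinFamily hΦ f₀ m₀ T f) (hg : GoodDatum f₀ κ) (L : ℕ) :
    ML.RelZ Φ f₀ L := KT.relZ hΦ hg K.b0 K.M0 (f0_le K) L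

theorem alive_kin (K : KE.KinFamily hΦ f₀ m₀ T f) (hg : GoodDatum f₀ κ) (hd : IsDatum β' f₀)
    (hT : 0 < T) (s : ℕ) : AliveENN f₀ T (uK K) (AL Φ) (MY Φ) s :=
  alive_of_relZ K hg hd hT (fun L => relZ_kin K hg L) s

theorem i1_kin (K : KE.KinFamily hΦ f₀ m₀ T f) (hg : GoodDatum f₀ κ) (hd : IsDatum β' f₀)
    (hT : 0 ≤ T) : ∀ᶠ L in atTop, Cap.InI1 Φ f₀ L T :=
  Cap.ev_i1 K hg hd hT fun L => relZ_kin K hg L

theorem nd_kin (K : KE.KinFamily hΦ f₀ m₀ T f) (hg : GoodDatum f₀ κ) (hd : IsDatum β' f₀)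
    (hT : 0 ≤ T) : ∀ᶠ L in atTop, Cap.InNd Φ f₀ L T K.nn K.b :=
  Cap.ev_nd K hg hd hT fun L => relZ_kin K hg L

theorem r_kin (K : KE.KinFamily hΦ f₀ m₀ T f) (hg : GoodDatum f₀ κ) (hd : IsDatum β' f₀)
    (hT : 0 ≤ T) : ∀ᶠ L in atTop, Cap.InR Φ f₀ L T K.rr :=
  Cap.ev_r K hg hd hT fun L => relZ_kin K hg L

/-- **The remaining inputs of the proof.** -/
structure Rest (K : KE.KinFamily hΦ f₀ m₀ T f) : Prop where
  e1 : ∀ᶠ L in atTop, ExcE1 Φ f₀ L T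
  e2 : ∀ᶠ L in atTop, ExcE2 hΦ f₀ L T
  path : ∀ (m : ℕ → ℝ) (b l₁ l₂ Q : ℝ) (α a : ℕ → ℝ), PB.Par T K.b m b l₁ l₂ Q α a →
    (∀ᶠ L in atTop, CapT Φ f₀ L T (K.b / 2) m) →
    ∃ SE : ℕ → ℝ → ℝ → ℝ → ℝ≥0∞, PathIn hΦ f₀ T b l₁ l₂ a SE

theorem Rest.inputs {K : KE.KinFamily hΦ f₀ m₀ T f} (H : Rest K) (hg : GoodDatum f₀ κ)
    (hd : IsDatum β' f₀) (hT : 0 < T) : Inputs K :=
  ⟨fun s => alive_kin K hg hd hT s, i1_kin K hg hd hT.le, nd_kin K hg hd hT.le,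
    r_kin K hg hd hT.le, H.e1, H.e2, H.path⟩

/-- **Question 1 from the remaining inputs.** -/
theorem questionOne_of_rest
    (H : ∀ (Φ : E3 → ℝ) (β T κ : ℝ) (f₀ : Ph → ℝ) (f : ℝ → Ph → ℝ) (hΦ : IsPotential Φ),
      IsStable Φ → 0 < β → ∀ (hT : 0 < T), IsDatum β f₀ → ∀ (h : RegSol Φ β f₀ T f),
      GoodDatum f₀ κ → ∀ K : KE.KinFamily hΦ f₀ (K1.measurable_f0hat hT h) T f,
        Rest K) :
    Stmt.QuestionOne (E := E3) Bridge.lat :=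
  questionOne_of_inputs fun Φ β T κ f₀ f hΦ hst hβ hT hd h hg K =>
    (H Φ β T κ f₀ f hΦ hst hβ hT hd h hg K).inputs hg hd hT

end Vale.Agent.P119.AU
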